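import Vale.Agent.P119.H369.Defs

/-!
# The Boltzmann-Grad limit: collision histories of the particles

Microscopic side: encounters, number of particles met, backward clusters, triple encounters and
recollisions along a solution `z` of Newton's equations. Kinetic side: the decomposition of `f`
according to the number of jumps, and Wild's sum. All densities and averages are in `ℝ≥0∞`.
-/

open MeasureTheory Filter Topology Set
open scoped ENNReal

namespace Vale.Agent.N119

open Vale.Agent.P119.H369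

variable {E : Type} [NormedAddCommGroup E]

/-! ### Histories of the particles -/

section Micro

variable {N : ℕ}

/-- The particles `i ≠ j` interact at time `τ`: their distance is `< ε`. -/
def Meet (ε : ℝ) (z : ℝ → Fin N → E × E) (τ : ℝ) (i j : Fin N) : Prop :=
  i ≠ j ∧ ‖(z τ i).1 - (z τ j).1‖ < ε

/-- The number of particles which `i` has met during `[0, t]`. -/
noncomputable def met (ε : ℝ) (z : ℝ → Fin N → E × E) (t : ℝ) (i : Fin N) : ℕ :=
  {j | ∃ τ ∈ Icc 0 t, Meet ε z τ i j}.ncard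

/-- `k` is in the backward cluster of `i` at time `t`: it is linked to `i` by a chain of encounters
`i ∼ j₁ ∼ j₂ ∼ ⋯ ∼ k` at times `t ≥ τ₁ ≥ τ₂ ≥ ⋯ ≥ 0`. -/
inductive Back (ε : ℝ) (z : ℝ → Fin N → E × E) : ℝ → Fin N → Fin N → Prop
  | refl (t : ℝ) (i : Fin N) : Back ε z t i i
  | step {t τ : ℝ} {i j k : Fin N} : τ ∈ Icc 0 t → Meet ε z τ i j → Back ε z τ j k →
      Back ε z t i k

/-- The number of particles other than `i` in the backward cluster of `i` at time `t`. -/
noncomputable def cluster (ε : ℝ) (z : ℝ → Fin N → E × E) (t : ℝ) (i : Fin N) : ℕ :=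
  {k | k ≠ i ∧ Back ε z t i k}.ncard

/-- During `[0, T]` the particle `i` takes part in a triple encounter (it interacts with `j` while
`i` or `j` interacts with a third particle `k`), or in a recollision (it meets `j` although, at an
earlier time at which they did not interact, their backward clusters had a common particle). -/
def Irregular (ε : ℝ) (z : ℝ → Fin N → E × E) (T : ℝ) (i : Fin N) : Prop :=
  ∃ τ ∈ Icc 0 T, ∃ j, Meet ε z τ i j ∧
    ((∃ k, k ≠ i ∧ k ≠ j ∧ (Meet ε z τ i k ∨ Meet ε z τ j k)) ∨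
      ∃ r ∈ Icc 0 τ, ¬Meet ε z r i j ∧ ∃ k, Back ε z r i k ∧ Back ε z r j k)

end Micro

/-! ### The kinetic side -/

section Kinetic

variable [InnerProductSpace ℝ E] [FiniteDimensional ℝ E] [MeasureSpace E] [BorelSpace E]

/-- The gain term `Q⁺(g, h)(v) = ∫∫ |V| g(v') h(v'_*) dρ dv_*` of the collision operator. -/
noncomputable def gain (G : E → E) (g h : E → ℝ≥0∞) (v : E) : ℝ≥0∞ :=
  ∫⁻ vs : E, ∫⁻ ρ in Metric.ball 0 1,
    ‖v - vs‖ₑ * (g ((2 : ℝ)⁻¹ • (v + vs + outgoing G (v - vs) ρ)) *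
      h ((2 : ℝ)⁻¹ • (v + vs - outgoing G (v - vs) ρ))) ∂lebesgueOn (ℝ ∙ (v - vs))ᗮ

/-- The probability of a free flight during `[s, t]` along the line which ends at `(x, v)`:
`exp (-∫_s^t π ∫ |v - w| f(r, x - (t - r) v, w) dw dr)`. -/
noncomputable def survival (f : ℝ → E × E → ℝ) (s t : ℝ) (x v : E) : ℝ≥0∞ :=
  ENNReal.ofReal (Real.exp
    (-∫ r in s..t, Real.pi * ∫ w : E, ‖v - w‖ * f r (x - (t - r) • v, w)))

/-- The density at time `t` of the particles which have not collided. -/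
noncomputable def freeFlight (f : ℝ → E × E → ℝ) (t : ℝ) (ζ : E × E) : ℝ≥0∞ :=
  ENNReal.ofReal (f 0 (ζ.1 - t • ζ.2, ζ.2)) * survival f 0 t ζ.1 ζ.2

/-- Last collision at time `s`, between a particle of density `g` (the one which is followed) and a
particle of density `h`, and then a free flight until `t`. -/
noncomputable def duhamel (G : E → E) (f : ℝ → E × E → ℝ) (g h : ℝ → E × E → ℝ≥0∞) (t : ℝ)
    (ζ : E × E) : ℝ≥0∞ :=
  ∫⁻ s in Ioc 0 t, survival f s t ζ.1 ζ.2 *
    gain G (fun w => g s (ζ.1 - (t - s) • ζ.2, w)) (fun w => h s (ζ.1 - (t - s) • ζ.2, w)) ζ.2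

/-- `g k` is the density of the particles of the Boltzmann jump process driven by `f` which have
jumped exactly `k` times (the recursion determines `g` on `[0, T]`). -/
def IsJumpLaw (G : E → E) (f : ℝ → E × E → ℝ) (T : ℝ) (g : ℕ → ℝ → E × E → ℝ≥0∞) : Prop :=
  ∀ t ∈ Icc 0 T, g 0 t = freeFlight f t ∧
    ∀ k, g (k + 1) t = duhamel G f (g k) (fun r ζ => ENNReal.ofReal (f r ζ)) t

/-- `g n` is the `n`-th term of Wild's sum (the recursion determines `g` on `[0, T]`). -/
def IsWildSum (G : E → E) (f : ℝ → E × E → ℝ) (T : ℝ) (g : ℕ → ℝ → E × E → ℝ≥0∞) : Prop :=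
  ∀ t ∈ Icc 0 T, g 0 t = freeFlight f t ∧
    ∀ n, g (n + 1) t = fun ζ => ∑ k ∈ Finset.range (n + 1), duhamel G f (g k) (g (n - k)) t ζ

end Kinetic

/-! ### Convergence of marked marginals -/

section Marked

variable [MeasureSpace E]

/-- `|a - b|` in `[0, ∞]`. -/
noncomputable def gap (a b : ℝ≥0∞) : ℝ≥0∞ := (a - b) + (b - a)

/-- `f = ∑_n g_n` on `[0, T]`, and for every `s` the law of `s` distinct particles together with
their marks `m` converges in total variation, uniformly on `[0, T]`, to the product law: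
`μ^{-s} 𝔼 ∑ a((z_{i_k}(t), m_{i_k}(t))_k) - ∑_{n_1, …, n_s} ∫ a((ζ_k, n_k)_k) ∏_k g_{n_k}(t, ζ_k) dζ`
tends to `0`, uniformly in `t ∈ [0, T]` and in the measurable `a` with `0 ≤ a ≤ 1`. -/
def MarkedLimit (f₀ : E × E → ℝ) (z : ℝ → GasFlow E) (T : ℝ) (f : ℝ → E × E → ℝ)
    (m : {N : ℕ} → ℝ → (ℝ → Fin N → E × E) → ℝ → Fin N → ℕ) (g : ℕ → ℝ → E × E → ℝ≥0∞) : Prop :=
  (∀ t ∈ Icc 0 T, ∀ ζ, ∑' n, g n t ζ = ENNReal.ofReal (f t ζ)) ∧
  ∀ s : ℕ, Tendsto (fun ε => ⨆ t ∈ Icc 0 T,
    ⨆ (a : (Fin s → (E × E) × ℕ) → ℝ≥0∞) (_ : Measurable a) (_ : ∀ y, a y ≤ 1),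
      gap (ENNReal.ofReal ((ε ^ 2) ^ s) * expectation f₀ ε (fun N Z => ∑ σ : Fin s ↪ Fin N,
          a (fun k => (z ε N Z t (σ k), m ε (z ε N Z) t (σ k)))))
        (∑' n : Fin s → ℕ, ∫⁻ ζ : Fin s → E × E,
          a (fun k => (ζ k, n k)) * ∏ k, g (n k) t (ζ k))) (𝓝[>] 0) (𝓝 0)

end Marked

end Vale.Agent.N119
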