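import Vale.Agent.P119.AU.Q1
import Vale.Agent.P119.H369.Assembly

/-!
# Few particles are exposed; expectations as integrals over configurations
-/

open MeasureTheory Filter Topology Set
open scoped ENNReal

noncomputable section

namespace Vale.Agent.N119

open Vale.Agent.P119 Vale.Agent.P119.GC Vale.Agent.P119.END Vale.Agent.P119.AU
open Vale.Agent.P119.M (Shape shapes mem_shapes)

variable {Φ : E3 → ℝ} {β T κ ε t : ℝ} {f₀ : Ph → ℝ} {f : ℝ → Ph → ℝ} {L : ℕ}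

/-- The expected number of exposed particles is `o(μ)`. -/
def ExpoSmall (hΦ : IsPotential Φ) (f₀ : Ph → ℝ) (T : ℝ) : Prop :=
  ∀ δ : ℝ, 0 < δ → ∀ᶠ L in atTop, ∀ᶠ ε in 𝓝[>] (0 : ℝ), ∀ hε : 0 < ε, ∀ t ∈ Icc 0 T,
    (ENNReal.ofReal (mu ε))⁻¹ * ∫⁻ c, ((expo hΦ hε L t c).card : ℝ≥0∞) ∂(PP f₀ ε) ≤
      ENNReal.ofReal δ

theorem wrong_eq (hΦ : IsPotential Φ) (hε : 0 < ε) (c : Conf Ph) :
    wrong Φ ε t (fun c z => ∃ hε : 0 < ε, z ∈ expo hΦ hε L t c)
      (fun c z => RW.R Φ ε (pts c) t z + (K1.e0, 0)) c = expo hΦ hε L t c := by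
  ext z
  rw [mem_wrong]
  refine ⟨fun h => h.2.1.2, fun h => ⟨(mem_expo.1 h).1, ⟨hε, h⟩, fun h' => K1.e0_ne ?_⟩⟩
  exact congrArg Prod.fst (left_eq_add.1 h')

theorem expoSmall_of_raw {C K : ℝ} {p : ℕ} {cr Mb : ℕ → ℝ}
    {Θ SE : ℕ → ℝ → ℝ → ℝ → ℝ≥0∞} {W : ℕ → ℝ → ℝ → ℝ → ℝ → ℝ≥0∞}
    (hΦ : IsPotential Φ) (h : GoodDatum f₀ κ) (hcr : KE.SuperExp cr)
    (hR : RawSys T C K p cr Mb (dD hΦ f₀) Θ (dF hΦ f₀) SE W) : ExpoSmall hΦ f₀ T := by
  have hK3 : 1 ≤ K ^ 3 := one_le_pow₀ hR.K1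
  have hK8 : 1 ≤ 8 * K ^ 3 := by linarith
  have hC := hR.C0
  have hp := pathENN_of_stop (Φ := Φ) (T := T)
    (al := fun L ε c t z => ∃ hε : 0 < ε, z ∈ expo hΦ hε L t c)
    (y := fun _ ε c t z => RW.R Φ ε (pts c) t z + (K1.e0, 0))
    (G := gN hΦ (KE.thr (8 * K ^ 3) p)) (K := 8 * K ^ 3)
    (C₀ := 24 * (2 * C + 1) * Real.exp (64 * (2 * C + 1) ^ 2 * T)) h hK8 p hR.cr0 hcr
    (by positivity) ?_ ?_
  · intro δ hδ
    filter_upwards [hp δ hδ] with L hL
    filter_upwards [hL] with ε h1 hε t ht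
    have h2 := h1 t ht
    simp only [wrong_eq hΦ hε] at h2
    exact h2
  · filter_upwards [hR.limit_all] with L hL ρ hρ
    filter_upwards [hL ρ hρ, self_mem_nhdsWithin] with ε h1 hε t ht
    rw [lintegral_gN hε]
    refine le_trans ?_ (h1 t ht)
    rw [add_right_comm]
    exact le_add_right le_rfl
  · filter_upwards with L
    filter_upwards [self_mem_nhdsWithin] with ε hε t ht
    filter_upwards with c
    rw [wrong_eq hΦ hε]
    exact expo_or_gN (KE.thr_pos hK8 p L) hε ht.1 c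

variable {hΦ : IsPotential Φ} {m₀ : Measurable fun p : E3 × E3 => K1.f0hat f₀ p.1 p.2}
  (K : KE.KinFamily hΦ f₀ m₀ T f)

include K in
theorem expoSmall (hst : IsStable Φ) (hT : 0 < T) (hg : GoodDatum f₀ κ) (hd : IsDatum β f₀) :
    ExpoSmall hΦ f₀ T := by
  have hrel : ∀ L, ML.RelZ Φ f₀ L := KT.relZ_of_kin K hg
  have H : Inputs K := inputs_of K hst hg hd hT
    (laws_of hΦ hg hT K.b0 K.M0 (f0_le K) (f0_mass K))
    (PB.p8In hΦ hst hg K.b0 K.M0 (f0_le K) (f0_mass K) (Cap.ev_i1 K hg hd hT.le hrel)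
      (PB.badPP_small K hg hd hT))
  obtain ⟨B, hB0, hB⟩ := hst
  obtain ⟨m, hm0, hm, hcap⟩ := PB.exists_capT hΦ hg K.b0 hT.le K.M0 (f0_le K)
    (fun d => K.nn_nonneg d) (fun j => K.rr_nonneg hT.le j) K.nn_superExp (K.rr_superExp hT.le)
  have hcap' : ∀ᶠ L in atTop, PB.CapT Φ f₀ L T (K.b / 2) m := by
    filter_upwards [H.i1, H.nd, H.r] with L h1 h2 h3
    exact hcap L h1 h2 h3
  obtain ⟨b, l₁, l₂, Q, α, a, hP⟩ := PB.exists_par hT K.b0 hm0 hm
  obtain ⟨SE, hS⟩ := H.path m b l₁ l₂ Q α a hP hcap'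
  obtain ⟨C, K', p, cr, Mb, h4, h5⟩ := PB.exists_rawSys (hΦ := hΦ) (B := B) ⟨hB0, hB⟩ hg hT K.b0
    K.M0 (f0_le K) (f0_mass K) hP.b0 hP.wts hP.l₁0 hP.l₂0 hS.monoS
    (PB.in3_of_par hP hg K.M0 (f0_le K) hcap' H.i1 H.e1 H.e2 SE) hS.p8 hS.p9 hS.p10 hS.p11
  exact expoSmall_of_raw hΦ hg h4 h5

theorem core_all (hT : 0 < T) (hg : GoodDatum f₀ κ) (hd : IsDatum β f₀) (s : ℕ) :
    ∀ᶠ L in atTop, ∀ τ ∈ Fintype.piFinset (fun _ : Fin s => shapes L), Core K L τ := by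
  have hrel : ∀ L, ML.RelZ Φ f₀ L := KT.relZ_of_kin K hg
  have hc : Continuous f₀ := hd.contDiff.continuous
  filter_upwards [eventually_ge_atTop K.L₀] with L hL τ hτ
  have hL' := hL.trans (Nat.le_succ L)
  have hτ' : ∀ k, (τ k).depth ≤ L := fun k => mem_shapes.1 (Fintype.mem_piFinset.1 hτ k)
  have st : ML.Std K κ L := ⟨hg, hc, hL', hT.le⟩
  exact core_of_lim K hL' hg hc hT τ
    (survLim_of K (ML.gsys hΦ f₀ L (hrel L)) (fun F t h => ML.GenN.of_gen h)
      (fun εs h h0 t ht F hF =>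
        (st.hyp h h0).surv_tendsto (ML.gsys hΦ f₀ L (hrel L)) hF ht.1 ht.2) τ hτ')
    (relLim_of hΦ hT (ML.gsys hΦ f₀ L (hrel L)) (fun F t h => ML.GenN.of_gen h) τ hτ')

/-! ### Tuples with an exposed particle -/

theorem measurable_card {X α : Type} [MeasurableSpace X] [MeasurableSpace α] [MeasurableEq α]
    {W : X → Finset α} (h : MM.RS fun x => (W x : Set α)) : Measurable fun x => (W x).card := by
  have h1 := h.measurable_encard.ennreal_toReal.nat_floor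
  simpa using h1

theorem card_expo (hε : 0 < ε) (c : Conf Ph) :
    (expo hΦ hε L t c).card = (PB.ex L hΦ hε (wS (pts c)) t).card := by
  rw [← Finset.card_map RB.srcEmb]
  congr 1
  ext a
  rw [Finset.mem_map, PB.mem_ex]
  constructor
  · rintro ⟨z, hz, rfl⟩
    exact (mem_expo.1 hz).2
  · intro h
    obtain ⟨z, hz, rfl⟩ := Finset.mem_map.1 (show a ∈ (pts c).map RB.srcEmb from h.mem)
    exact ⟨z, mem_expo.2 ⟨hz, h⟩, rfl⟩

theorem card_tupBad (s : ℕ) {w B : Finset Ph} (h : B ⊆ w) : (tupBad s w B).card =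
    w.card.descFactorial s - (w.card - B.card).descFactorial s := by
  classical
  rw [← Finset.card_sdiff_of_subset h, ← card_tup, ← card_tup, ← Finset.card_sdiff_of_subset]
  · congr 1
    ext z
    rw [mem_tupBad, Finset.mem_sdiff, mem_tup, mem_tup]
    refine and_congr_right fun hz => ⟨?_, fun h1 => ?_⟩
    · rintro ⟨k, hk⟩ h1
      exact (Finset.mem_sdiff.1 (h1.1 k)).2 hk
    · by_contra h2
      exact h1 ⟨fun k => Finset.mem_sdiff.2 ⟨hz.1 k, fun hk => h2 ⟨k, hk⟩⟩, hz.2⟩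
  · intro z hz
    exact mem_tup.2 ⟨fun k => (Finset.mem_sdiff.1 ((mem_tup.1 hz).1 k)).1, (mem_tup.1 hz).2⟩

theorem measurable_expo (hε : 0 < ε) : Measurable fun c : Conf Ph => (expo hΦ hε L t c).card := by
  simp only [card_expo]
  exact measurable_card (RM.rs_ex RM.rs_conf measurable_const)

theorem measurable_tupBad (hε : 0 < ε) (s : ℕ) : Measurable fun c : Conf Ph =>
    ((tupBad s (pts c) (expo hΦ hε L t c)).card : ℝ≥0∞) := by
  have h1 : Measurable fun c : Conf Ph => (pts c).card := measurable_card (MM.RS.pts measurable_id)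
  have h2 : ∀ c : Conf Ph, expo hΦ hε L t c ⊆ pts c := fun c z hz => (mem_expo.1 hz).1
  have h3 := (measurable_of_countable fun p : ℕ × ℕ =>
    ((p.1.descFactorial s - (p.1 - p.2).descFactorial s : ℕ) : ℝ≥0∞)).comp
      (h1.prodMk (measurable_expo (hΦ := hΦ) (L := L) (t := t) hε))
  simp only [card_tupBad s (h2 _)]
  exact h3

theorem ExpoSmall.tupBad (H : ExpoSmall hΦ f₀ T) (hg : GoodDatum f₀ κ) (s : ℕ) {δ : ℝ}
    (hδ : 0 < δ) : ∀ᶠ L in atTop, ∀ᶠ ε in 𝓝[>] (0 : ℝ), ∀ hε : 0 < ε, ∀ t ∈ Icc 0 T,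
      (ENNReal.ofReal (mu ε ^ s))⁻¹ *
        ∫⁻ c, ((tupBad s (pts c) (expo hΦ hε L t c)).card : ℝ≥0∞) ∂(PP f₀ ε) ≤
        ENNReal.ofReal δ := by
  obtain ⟨A, hA, hAb⟩ := exists_tupBad_le hg s (δ := δ / 2) (by positivity)
  filter_upwards [H (δ / (2 * A)) (by positivity)] with L hL
  filter_upwards [hL, Ioo_mem_nhdsGT (show (0 : ℝ) < 1 by norm_num)] with ε h1 hε1 hε t ht
  refine (hAb ε hε hε1.2.le _ fun c z hz => (mem_expo.1 hz).1).trans ?_
  refine (add_le_add (mul_le_mul_right (h1 hε t ht) _) le_rfl).trans (le_of_eq ?_)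
  rw [← ENNReal.ofReal_mul hA.le, ← ENNReal.ofReal_add (by positivity) (by positivity)]
  congr 1
  field_simp
  ring

/-! ### Expectations -/

theorem measurableEmbedding_mk (N : ℕ) : MeasurableEmbedding (mk N : (Fin N → Ph) → Conf Ph) := by
  refine ⟨mk_injective N, measurable_mk N, fun t ht => ?_⟩
  rw [measurableSet_conf]
  intro M
  by_cases hM : M = N
  · subst hM
    have e : {Z : Fin M → Ph | (⟨M, Z⟩ : Conf Ph) ∈ mk M '' t} = t := by
      ext Z
      exact (mk_injective M).mem_set_image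
    rw [e]
    exact ht
  · have e : {Z : Fin M → Ph | (⟨M, Z⟩ : Conf Ph) ∈ mk N '' t} = ∅ := by
      refine eq_empty_of_forall_notMem ?_
      rintro Z ⟨W, -, e⟩
      exact hM (Sigma.mk.inj e).1.symm
    rw [e]
    exact MeasurableSet.empty

/-- The expectation of any observable is its integral with respect to the law of the gas. -/
theorem expectation_eq (h : GoodDatum f₀ κ) (hε : 0 < ε) (g : (N : ℕ) → (Fin N → Ph) → ℝ≥0∞) :
    H369.expectation f₀ ε g = ∫⁻ c, g c.1 c.2 ∂(PP f₀ ε) := by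
  have := isProbabilityMeasure_law h.nonneg h.integrable h.integral_eq
  rw [H369.expectation, H369.gasSum_one h hε, H369.gasSum_eq h.nonneg, ENNReal.div_eq_inv_mul,
    PP, lintegral_gc, pre_univ_eq h hε, pre, lintegral_sum_measure]
  congr 1
  refine tsum_congr fun N => ?_
  have e : (Measure.pi fun _ : Fin N => inten f₀ ε) =
      ENNReal.ofReal (mu ε) ^ N • Measure.pi fun _ : Fin N => law f₀ := by
    have := pi_smul_const (ι := Fin N) (ENNReal.ofReal (mu ε)) ENNReal.ofReal_ne_top (law f₀)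
    simpa [inten] using this
  have e2 : {Z : Fin N → Ph | PW (Cx ε) Z} = excl ε N := rfl
  rw [(measurableEmbedding_mk N).lintegral_map, lintegral_smul_measure, e, Measure.restrict_smul,
    lintegral_smul_measure, smul_eq_mul, smul_eq_mul, ← mul_assoc, e2,
    ← withDensity_wt h.meas h.nonneg h.integrable ε N,
    lintegral_withDensity_eq_lintegral_mul_non_measurable _ (measurable_wt h.meas ε).ennreal_ofReal
      (Eventually.of_forall fun _ => ENNReal.ofReal_lt_top)]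
  congr 1
  rw [aw, ENNReal.ofReal_div_of_pos (by positivity), ENNReal.ofReal_natCast,
    ENNReal.div_eq_inv_mul, ENNReal.ofReal_pow (mu_pos hε).le]

theorem ofReal_sq_pow (hε : 0 < ε) (s : ℕ) :
    ENNReal.ofReal ((ε ^ 2) ^ s) = (ENNReal.ofReal (mu ε ^ s))⁻¹ := by
  rw [← ENNReal.ofReal_inv_of_pos (pow_pos (mu_pos hε) s), mu, inv_pow, inv_inv]

theorem sum_lintegral_le {X ι : Type*} [MeasurableSpace X] (μ : Measure X) (S : Finset ι)
    (F : ι → X → ℝ≥0∞) : ∑ i ∈ S, ∫⁻ x, F i x ∂μ ≤ ∫⁻ x, ∑ i ∈ S, F i x ∂μ := by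
  classical
  induction S using Finset.induction_on with
  | empty => simp
  | insert i S hi ih =>
    simp only [Finset.sum_insert hi]
    exact (add_le_add le_rfl ih).trans (le_lintegral_add _ _)

end Vale.Agent.N119
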