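import Vale.Agent.P119.KE.Shapes

/-!
# Splitting a mild solution according to a mark of the collision trees
-/

open MeasureTheory Filter Topology Set
open scoped ENNReal

noncomputable section

namespace Vale.Agent.N119

open Vale.Agent.P119 Vale.Agent.P119.KE
open Vale.Agent.P119.M (Shape shapes mem_shapes)

/-- Densities. -/
abbrev Dens := ℝ → E3 → E3 → ℝ≥0∞

variable {G : Gain} {D : MildData} {T : ℝ} {F : Dens}

theorem measurable_duh_int {h k : Dens} (mh : JM h) (mk : JM k) (t : ℝ) (x v : E3) :
    Measurable fun s => D.S s t x v * G.Q (h s (x - (t - s) • v)) (k s (x - (t - s) • v)) v := by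
  refine Measurable.mul ?_ ?_
  · exact D.measurable_S measurable_id measurable_const measurable_const measurable_const
  · exact G.measurable_Q
      (h := fun q : ℝ × E3 => h q.1 (x - (t - q.1) • v) q.2)
      (k := fun q : ℝ × E3 => k q.1 (x - (t - q.1) • v) q.2) (w := fun _ => v)
      (mh.comp (by fun_prop) (by fun_prop) (by fun_prop))
      (mk.comp (by fun_prop) (by fun_prop) (by fun_prop)) measurable_const

theorem duh_sum {ι κ : Type*} {A : Finset ι} {B : Finset κ} {h : ι → Dens} {k : κ → Dens}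
    (mh : ∀ i, JM (h i)) (mk : ∀ j, JM (k j)) (t : ℝ) (x v : E3) :
    D.duh G (fun s y w => ∑ i ∈ A, h i s y w) (fun s y w => ∑ j ∈ B, k j s y w) t x v =
      ∑ i ∈ A, ∑ j ∈ B, D.duh G (h i) (k j) t x v := by
  unfold MildData.duh
  have h1 : ∀ s, D.S s t x v * G.Q (fun w => ∑ i ∈ A, h i s (x - (t - s) • v) w)
      (fun w => ∑ j ∈ B, k j s (x - (t - s) • v) w) v =
      ∑ i ∈ A, ∑ j ∈ B, D.S s t x v * G.Q (h i s (x - (t - s) • v)) (k j s (x - (t - s) • v)) v := by
    intro s
    rw [Gain.Q_sum G (fun i => (mh i).slice s _) (fun j => (mk j).slice s _), Finset.mul_sum]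
    exact Finset.sum_congr rfl fun i _ => Finset.mul_sum _ _ _
  simp only [h1]
  rw [lintegral_finsetSum _ fun i _ =>
    Finset.measurable_fun_sum _ fun j _ => measurable_duh_int (mh i) (mk j) t x v]
  exact Finset.sum_congr rfl fun i _ =>
    lintegral_finsetSum _ fun j _ => measurable_duh_int (mh i) (mk j) t x v

theorem jm_sum {ι : Type*} {A : Finset ι} {h : ι → Dens} (mh : ∀ i, JM (h i)) :
    JM fun s y w => ∑ i ∈ A, h i s y w :=
  Finset.measurable_fun_sum _ fun i _ => mh i

/-- The density of the trees of a shape. -/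
def pS (G : Gain) (D : MildData) : Shape → Dens
  | .leaf => D.g₀
  | .node a b => D.duh G (pS G D a) (pS G D b)

theorem jm_pS : ∀ τ : Shape, JM (pS G D τ)
  | .leaf => D.mg
  | .node a b => D.jm_duh (jm_pS a) (jm_pS b)

theorem sum_pS (d : ℕ) (t : ℝ) (x v : E3) :
    ∑ τ ∈ shapes d, pS G D τ t x v = D.pic G (d + 1) t x v := by
  induction d generalizing t x v with
  | zero =>
    rw [shapes_zero, Finset.sum_singleton]
    change D.g₀ t x v = D.g₀ t x v + D.duh G (D.pic G 0) (D.pic G 0) t x v
    have : D.duh G (D.pic G 0) (D.pic G 0) t x v = 0 := by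
      simp [MildData.duh, MildData.pic, Gain.Q]
    rw [this, add_zero]
  | succ d ih =>
    rw [sum_shapes_succ]
    change D.g₀ t x v + ∑ a ∈ shapes d, ∑ b ∈ shapes d, D.duh G (pS G D a) (pS G D b) t x v =
      D.g₀ t x v + D.duh G (D.pic G (d + 1)) (D.pic G (d + 1)) t x v
    rw [← duh_sum jm_pS jm_pS]
    have e : (fun s y w => ∑ τ ∈ shapes d, pS G D τ s y w) = D.pic G (d + 1) := by
      funext s y w
      exact ih s y w
    rw [e]

/-- The trees of depth `≤ d` with mark `j`. -/
def gD (G : Gain) (D : MildData) (m : Shape → ℕ) (d j : ℕ) : Dens :=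
  fun t x v => ∑ τ ∈ (shapes d).filter (fun τ => m τ = j), pS G D τ t x v

theorem jm_gD (m : Shape → ℕ) (d j : ℕ) : JM (gD G D m d j) := jm_sum jm_pS

theorem gD_eq (m : Shape → ℕ) (d j : ℕ) (t : ℝ) (x v : E3) :
    gD G D m d j t x v = ∑ τ ∈ shapes d, if m τ = j then pS G D τ t x v else 0 :=
  Finset.sum_filter _ _

theorem tsum_gD (m : Shape → ℕ) (d : ℕ) (t : ℝ) (x v : E3) :
    ∑' j, gD G D m d j t x v = D.pic G (d + 1) t x v := by
  simp only [gD_eq]
  rw [Summable.tsum_finsetSum fun _ _ => ENNReal.summable, ← sum_pS]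
  refine Finset.sum_congr rfl fun τ _ => ?_
  simp only [eq_comm (a := m τ)]
  exact tsum_ite_eq _ _

/-- `g j` is the density of all the trees with mark `j`. -/
structure Split (G : Gain) (D : MildData) (T : ℝ) (F : Dens) (m : Shape → ℕ) (g : ℕ → Dens) :
    Prop where
  jm : ∀ j, JM (g j)
  ge : ∀ d j, ∀ t ∈ Icc 0 T, ∀ x v, gD G D m d j t x v ≤ g j t x v
  le : ∀ M, ∀ t ∈ Icc 0 T, ∀ x v, ∑ j ∈ Finset.range M, g j t x v ≤ F t x v

theorem Split.tsum_le {m : Shape → ℕ} {g : ℕ → Dens} (H : Split G D T F m g) {t : ℝ}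
    (ht : t ∈ Icc 0 T) (x v : E3) : ∑' j, g j t x v ≤ F t x v :=
  ENNReal.tsum_le_of_sum_range_le fun M => H.le M t ht x v

theorem Split.tsum_eq {m : Shape → ℕ} {g : ℕ → Dens} (H : Split G D T F m g)
    (h : D.IsSol G T F) {C γ : ℝ} (hC : 0 ≤ C) (hγ : 0 < γ) (hT : 0 ≤ T)
    (hf : ∀ t ∈ Icc 0 T, ∀ x v, F t x v ≤ gs C γ v) {t : ℝ} (ht : t ∈ Icc 0 T) (x v : E3) :
    ∑' j, g j t x v = F t x v := by
  refine le_antisymm (H.tsum_le ht x v) ?_
  rw [← h.iSup_pic D hC hγ hT hf ht x v]
  refine iSup_le fun n => (D.pic_mono n t x v).trans ?_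
  rw [← tsum_gD m]
  exact ENNReal.tsum_le_tsum fun j => H.ge n j t ht x v

/-! ### The number of jumps -/

/-- The number of collisions of the root particle. -/
def spS : Shape → ℕ
  | .leaf => 0
  | .node a _ => spS a + 1

/-- The densities of the particles with `k` jumps. -/
def gJ (G : Gain) (D : MildData) (F : Dens) : ℕ → Dens
  | 0 => D.g₀
  | k + 1 => D.duh G (gJ G D F k) F

theorem jm_gJ (mF : JM F) : ∀ k, JM (gJ G D F k)
  | 0 => D.mg
  | k + 1 => D.jm_duh (jm_gJ mF k) mF

theorem mem_Icc_of_Ioc {s t : ℝ} (ht : t ∈ Icc 0 T) (hs : s ∈ Ioc 0 t) : s ∈ Icc 0 T :=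
  ⟨hs.1.le, hs.2.trans ht.2⟩

theorem split_jumps (h : D.IsSol G T F) : Split G D T F spS (gJ G D F) where
  jm := jm_gJ h.jm
  ge d := by
    induction d with
    | zero =>
      intro j t _ x v
      rw [gD_eq, shapes_zero, Finset.sum_singleton]
      split_ifs with hj
      · subst hj
        exact le_rfl
      · exact zero_le
    | succ d ih =>
      intro j t ht x v
      rw [gD_eq, sum_shapes_succ]
      cases j with
      | zero =>
        have h1 : ∀ a b : Shape, ¬spS (.node a b) = 0 := fun a b => Nat.succ_ne_zero _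
        simp only [h1, if_false, Finset.sum_const_zero, add_zero]
        rw [if_pos (show spS .leaf = 0 from rfl)]
        exact le_rfl
      | succ k =>
        rw [if_neg (show ¬spS .leaf = k + 1 from (Nat.succ_ne_zero k).symm), zero_add]
        have h1 : ∑ a ∈ shapes d, ∑ b ∈ shapes d,
            (if spS (.node a b) = k + 1 then pS G D (.node a b) t x v else 0) =
            ∑ a ∈ (shapes d).filter (fun τ => spS τ = k), ∑ b ∈ shapes d,
              D.duh G (pS G D a) (pS G D b) t x v := by
          rw [Finset.sum_filter]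
          refine Finset.sum_congr rfl fun a _ => ?_
          by_cases ha : spS a = k
          · rw [if_pos ha]
            exact Finset.sum_congr rfl fun b _ => if_pos (congrArg (· + 1) ha)
          · rw [if_neg ha]
            exact Finset.sum_eq_zero fun b _ => if_neg fun h => ha (Nat.succ_injective h)
        rw [h1, ← duh_sum jm_pS jm_pS]
        refine D.duh_mono (fun s hs y w => ih k s (mem_Icc_of_Ioc ht hs) y w)
          (fun s hs y w => ?_) x v
        rw [sum_pS]
        exact h.pic_le D _ (mem_Icc_of_Ioc ht hs) y w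
  le M := by
    induction M with
    | zero => intro t _ x v; simp
    | succ M ih =>
      intro t ht x v
      rw [Finset.sum_range_succ', h.eq t ht, add_comm]
      refine add_le_add le_rfl ?_
      have h1 := duh_sum (G := G) (D := D) (A := Finset.range M) (B := ({()} : Finset Unit))
        (h := gJ G D F) (k := fun _ => F) (jm_gJ h.jm) (fun _ => h.jm) t x v
      simp only [Finset.sum_singleton] at h1
      change ∑ k ∈ Finset.range M, D.duh G (gJ G D F k) F t x v ≤ _
      rw [← h1]
      exact D.duh_mono (fun s hs y w => ih s (mem_Icc_of_Ioc ht hs) y w)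
        (fun _ _ _ _ => le_rfl) x v

/-! ### Wild's sum -/

/-- The number of leaves other than the root. -/
def clS (τ : Shape) : ℕ := τ.card - 1

theorem shape_card_pos : ∀ τ : Shape, 0 < τ.card
  | .leaf => one_pos
  | .node a _ => Nat.add_pos_left (shape_card_pos a) _

theorem clS_node (a b : Shape) : clS (.node a b) = clS a + clS b + 1 := by
  have ha := shape_card_pos a
  have hb := shape_card_pos b
  change a.card + b.card - 1 = a.card - 1 + (b.card - 1) + 1
  omega

/-- The terms of Wild's sum. -/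
def gW (G : Gain) (D : MildData) : ℕ → Dens
  | 0 => D.g₀
  | n + 1 => fun t x v => ∑ k : Fin (n + 1), D.duh G (gW G D k) (gW G D (n - k)) t x v
termination_by n => n
decreasing_by
  · exact k.2
  · omega

theorem gW_zero : gW G D 0 = D.g₀ := by rw [gW]

theorem gW_succ (n : ℕ) (t : ℝ) (x v : E3) : gW G D (n + 1) t x v =
    ∑ k ∈ Finset.range (n + 1), D.duh G (gW G D k) (gW G D (n - k)) t x v := by
  rw [gW]
  exact Fin.sum_univ_eq_sum_range (fun k => D.duh G (gW G D k) (gW G D (n - k)) t x v) (n + 1)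

theorem jm_gW (n : ℕ) : JM (gW G D n) := by
  induction n using Nat.strong_induction_on with
  | _ n ih =>
    cases n with
    | zero => rw [gW_zero]; exact D.mg
    | succ n =>
      have e : gW G D (n + 1) = fun t x v =>
          ∑ k ∈ Finset.range (n + 1), D.duh G (gW G D k) (gW G D (n - k)) t x v := by
        funext t x v
        exact gW_succ n t x v
      rw [e]
      refine Finset.measurable_fun_sum _ fun k hk => ?_
      exact D.jm_duh (ih k (Finset.mem_range.1 hk)) (ih (n - k) (by omega))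

theorem split_wild (h : D.IsSol G T F) : Split G D T F clS (gW G D) where
  jm := jm_gW
  ge d := by
    induction d with
    | zero =>
      intro j t _ x v
      rw [gD_eq, shapes_zero, Finset.sum_singleton]
      split_ifs with hj
      · subst hj
        change _ ≤ gW G D 0 t x v
        rw [gW_zero]
        exact le_rfl
      · exact zero_le
    | succ d ih =>
      intro j t ht x v
      rw [gD_eq, sum_shapes_succ]
      cases j with
      | zero =>
        have h1 : ∀ a b : Shape, ¬clS (.node a b) = 0 := fun a b => by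
          rw [clS_node]
          exact Nat.succ_ne_zero _
        simp only [h1, if_false, Finset.sum_const_zero, add_zero]
        rw [if_pos (show clS .leaf = 0 from rfl), gW_zero]
        exact le_rfl
      | succ n =>
        rw [if_neg (show ¬clS .leaf = n + 1 from (Nat.succ_ne_zero n).symm), zero_add, gW_succ]
        have h1 : ∑ a ∈ shapes d, ∑ b ∈ shapes d,
            (if clS (.node a b) = n + 1 then pS G D (.node a b) t x v else 0) ≤
            ∑ k ∈ Finset.range (n + 1), ∑ a ∈ (shapes d).filter (fun τ => clS τ = k),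
              ∑ b ∈ (shapes d).filter (fun τ => clS τ = n - k),
                D.duh G (pS G D a) (pS G D b) t x v := by
          simp only [Finset.sum_filter]
          rw [Finset.sum_comm (s := Finset.range (n + 1))]
          refine Finset.sum_le_sum fun a _ => ?_
          by_cases ha : clS a ∈ Finset.range (n + 1)
          · refine le_trans ?_ (Finset.single_le_sum (f := fun k => if clS a = k then
              ∑ b ∈ shapes d, (if clS b = n - k then D.duh G (pS G D a) (pS G D b) t x v else 0)
              else 0) (fun _ _ => zero_le) ha)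
            simp only [if_true]
            refine Finset.sum_le_sum fun b _ => ?_
            split_ifs with h2 h3
            · exact le_rfl
            · rw [clS_node] at h2
              exact absurd (by omega) h3
            · exact zero_le
            · exact le_rfl
          · refine le_trans (le_of_eq (Finset.sum_eq_zero fun b _ => if_neg fun h2 => ha ?_))
              zero_le
            rw [clS_node] at h2
            exact Finset.mem_range.2 (by omega)
        refine h1.trans (Finset.sum_le_sum fun k _ => ?_)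
        rw [← duh_sum jm_pS jm_pS]
        exact D.duh_mono (fun s hs y w => ih k s (mem_Icc_of_Ioc ht hs) y w)
          (fun s hs y w => ih (n - k) s (mem_Icc_of_Ioc ht hs) y w) x v
  le M := by
    induction M with
    | zero => intro t _ x v; simp
    | succ M ih =>
      intro t ht x v
      rw [Finset.sum_range_succ', h.eq t ht, add_comm, gW_zero]
      refine add_le_add le_rfl ?_
      simp only [gW_succ]
      rw [Finset.sum_range_diag_flip M fun k l => D.duh G (gW G D k) (gW G D l) t x v]
      calc ∑ k ∈ Finset.range M, ∑ l ∈ Finset.range (M - k), D.duh G (gW G D k) (gW G D l) t x v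
          ≤ ∑ k ∈ Finset.range M, ∑ l ∈ Finset.range M, D.duh G (gW G D k) (gW G D l) t x v :=
            Finset.sum_le_sum fun k _ =>
              Finset.sum_le_sum_of_subset (Finset.range_subset_range.2 (Nat.sub_le _ _))
        _ = _ := (duh_sum jm_gW jm_gW t x v).symm
        _ ≤ _ := D.duh_mono (fun s hs y w => ih s (mem_Icc_of_Ioc ht hs) y w)
            (fun s hs y w => ih s (mem_Icc_of_Ioc ht hs) y w) x v

/-! ### Tuples -/

theorem tsum_pi_prod : ∀ {s : ℕ} (c : Fin s → ℕ → ℝ≥0∞),
    ∑' n : Fin s → ℕ, ∏ k, c k (n k) = ∏ k, ∑' j, c k j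
  | 0, c => by
    rw [tsum_fintype]
    simp
  | s + 1, c => by
    rw [← (Fin.consEquiv fun _ : Fin (s + 1) => ℕ).tsum_eq, ENNReal.tsum_prod',
      Fin.prod_univ_succ, ← tsum_pi_prod fun k => c k.succ, ← ENNReal.tsum_mul_right]
    refine tsum_congr fun j => ?_
    rw [← ENNReal.tsum_mul_left]
    refine tsum_congr fun n => ?_
    rw [Fin.prod_univ_succ]
    rfl

theorem tsum_prod_gD {s : ℕ} (m : Shape → ℕ) (d : ℕ) (t : ℝ) (ζ : Fin s → Ph)
    (a : (Fin s → ℕ) → ℝ≥0∞) :
    ∑' n : Fin s → ℕ, a n * ∏ k, gD G D m d (n k) t (ζ k).1 (ζ k).2 =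
      ∑ τ ∈ Fintype.piFinset (fun _ : Fin s => shapes d),
        a (fun k => m (τ k)) * ∏ k, pS G D (τ k) t (ζ k).1 (ζ k).2 := by
  classical
  have h1 : ∀ n : Fin s → ℕ, a n * ∏ k, gD G D m d (n k) t (ζ k).1 (ζ k).2 =
      ∑ τ ∈ Fintype.piFinset (fun _ : Fin s => shapes d),
        if n = (fun k => m (τ k)) then
          a (fun k => m (τ k)) * ∏ k, pS G D (τ k) t (ζ k).1 (ζ k).2 else 0 := by
    intro n
    simp only [gD_eq]
    rw [Finset.prod_univ_sum, Finset.mul_sum]
    refine Finset.sum_congr rfl fun τ _ => ?_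
    split_ifs with hn
    · subst hn
      simp only [if_true]
    · obtain ⟨k, hk⟩ := Function.ne_iff.1 hn
      rw [Finset.prod_eq_zero (Finset.mem_univ k) (if_neg fun h => hk h.symm), mul_zero]
  simp only [h1]
  rw [Summable.tsum_finsetSum fun _ _ => ENNReal.summable]
  exact Finset.sum_congr rfl fun τ _ => tsum_ite_eq _ _

/-- Replacing the full densities by finitely many shapes, pointwise. -/
theorem Split.tuple_le {m : Shape → ℕ} {g : ℕ → Dens} (H : Split G D T F m g)
    (h : D.IsSol G T F) (hF : ∀ t x v, F t x v ≠ ∞) {s : ℕ} (d : ℕ) {t : ℝ} (ht : t ∈ Icc 0 T)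
    (ζ : Fin s → Ph) {a : (Fin s → ℕ) → ℝ≥0∞} (ha : ∀ n, a n ≤ 1) :
    ∑' n : Fin s → ℕ, a n * ∏ k, g (n k) t (ζ k).1 (ζ k).2 ≤
      ∑ τ ∈ Fintype.piFinset (fun _ : Fin s => shapes d),
        a (fun k => m (τ k)) * ∏ k, pS G D (τ k) t (ζ k).1 (ζ k).2 +
      (∏ k, F t (ζ k).1 (ζ k).2 - ∏ k, D.pic G (d + 1) t (ζ k).1 (ζ k).2) := by
  set A : (Fin s → ℕ) → ℝ≥0∞ := fun n => ∏ k, g (n k) t (ζ k).1 (ζ k).2 with hA
  set B : (Fin s → ℕ) → ℝ≥0∞ := fun n => ∏ k, gD G D m d (n k) t (ζ k).1 (ζ k).2 with hB
  have hBA : ∀ n, B n ≤ A n := fun n =>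
    Finset.prod_le_prod' fun k _ => H.ge d (n k) t ht _ _
  have h1 : ∀ n, a n * A n ≤ a n * B n + (A n - B n) := by
    intro n
    calc a n * A n ≤ a n * (B n + (A n - B n)) := by gcongr; exact le_add_tsub
      _ = a n * B n + a n * (A n - B n) := mul_add _ _ _
      _ ≤ _ := by
        gcongr
        exact mul_le_of_le_one_left' (ha n)
  have h2 : ∑' n, B n = ∏ k, D.pic G (d + 1) t (ζ k).1 (ζ k).2 := by
    rw [hB, tsum_pi_prod fun k j => gD G D m d j t (ζ k).1 (ζ k).2]
    exact Finset.prod_congr rfl fun k _ => tsum_gD m d t _ _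
  have h3 : ∑' n, A n ≤ ∏ k, F t (ζ k).1 (ζ k).2 := by
    rw [hA, tsum_pi_prod fun k j => g j t (ζ k).1 (ζ k).2]
    exact Finset.prod_le_prod' fun k _ => H.tsum_le ht _ _
  have h4 : ∏ k, D.pic G (d + 1) t (ζ k).1 (ζ k).2 ≠ ∞ :=
    ENNReal.prod_ne_top fun k _ => ne_top_of_le_ne_top (hF _ _ _) (h.pic_le D _ ht _ _)
  have h5 : ∑' n, (A n - B n) ≤
      ∏ k, F t (ζ k).1 (ζ k).2 - ∏ k, D.pic G (d + 1) t (ζ k).1 (ζ k).2 := by
    refine ENNReal.le_sub_of_add_le_right h4 ?_
    rw [← h2, ← ENNReal.tsum_add]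
    refine le_trans (le_of_eq (tsum_congr fun n => tsub_add_cancel_of_le (hBA n))) h3
  calc ∑' n, a n * A n ≤ ∑' n, (a n * B n + (A n - B n)) := ENNReal.tsum_le_tsum h1
    _ = ∑' n, a n * B n + ∑' n, (A n - B n) := ENNReal.tsum_add
    _ ≤ _ := add_le_add (le_of_eq (tsum_prod_gD m d t ζ a)) h5

end Vale.Agent.N119
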