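import Vale.Agent.N119.Defs
import Vale.Agent.N119.Sums
import Vale.Agent.P119.END.AliveDom
import Vale.Agent.P119.H369.Bridge

/-!
# The kinetic side: identification of the recursions, and reduction to finitely many shapes
-/

open MeasureTheory Filter Topology Set
open scoped ENNReal RealInnerProductSpace

noncomputable section

namespace Vale.Agent.N119

open Vale.Agent.P119 Vale.Agent.P119.KE Vale.Agent.P119.END Vale.Agent.P119.KT
open Vale.Agent.P119.M (Shape shapes mem_shapes)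

variable {Φ : E3 → ℝ} {β T κ : ℝ} {f₀ : Ph → ℝ} {f : ℝ → Ph → ℝ}

/-! ### The gain term and the survival factor -/

theorem restrict_lebesgueOn {V : E3} (hV : V ≠ 0) :
    (H369.lebesgueOn (ℝ ∙ V)ᗮ).restrict (Metric.ball 0 1) =
      (μHE[2] : Measure E3).restrict (K1.disc V) := by
  have h1 : (volume : Measure (ℝ ∙ V)ᗮ) = μHE[2] := by
    rw [← Bridge.finrank_orthogonal hV, InnerProductSpace.euclideanHausdorffMeasure_eq_volume]
  have h3 : K1.disc V = Metric.ball (0 : E3) 1 ∩ range (Subtype.val : (ℝ ∙ V)ᗮ → E3) := by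
    ext x
    simp [K1.disc, Submodule.mem_orthogonal_singleton_iff_inner_left]
  have h4 : Isometry (Subtype.val : (ℝ ∙ V)ᗮ → E3) := isometry_subtype_coe
  rw [H369.lebesgueOn, h1, h4.map_euclideanHausdorffMeasure,
    Measure.restrict_restrict Metric.isOpen_ball.measurableSet, h3]

theorem disk_eq : K1.disk = Real.pi := by
  have hemb : MeasurableEmbedding (Subtype.val : (ℝ ∙ K1.e0)ᗮ → E3) :=
    MeasurableEmbedding.subtype_coe (Submodule.isClosed_orthogonal _).measurableSet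
  have h2 : Subtype.val ⁻¹' Metric.ball (0 : E3) 1 = Metric.ball (0 : (ℝ ∙ K1.e0)ᗮ) 1 := by
    ext x
    simp
  have hk : Module.finrank ℝ (ℝ ∙ K1.e0)ᗮ = 2 * 1 := Bridge.finrank_orthogonal K1.e0_ne
  have : Nontrivial (ℝ ∙ K1.e0)ᗮ := Module.nontrivial_of_finrank_pos (R := ℝ) (by omega)
  have h1 : K1.sig univ = ENNReal.ofReal Real.pi := by
    rw [K1.sig, ← restrict_lebesgueOn K1.e0_ne, Measure.restrict_apply_univ, H369.lebesgueOn,
      hemb.map_apply, h2, InnerProductSpace.volume_ball_of_dim_even hk]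
    simp
  rw [K1.disk, Measure.real, h1, ENNReal.toReal_ofReal Real.pi_pos.le]

theorem gain_eq (hΦ : IsPotential Φ) {g h : E3 → ℝ≥0∞} (mg : Measurable g) (mh : Measurable h)
    (v : E3) : gain (gradient Φ) g h v = (K1.gainOf hΦ).Q g h v := by
  rw [K1.gainOf_Q hΦ mg mh]
  refine lintegral_congr fun vs => ?_
  by_cases hv : v - vs = 0
  · simp [hv]
  · rw [restrict_lebesgueOn hv, K1.lintegral_disc hv]
    refine lintegral_congr fun ξ => ?_
    have e : H369.outgoing (gradient Φ) (v - vs) (K1.refl (v - vs) ξ) =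
        K1.relOut Φ (v - vs, ξ) := K1.relOut_eq hΦ hv ξ
    rw [e]
    rfl

theorem survival_eq (hΦ : IsPotential Φ) (hβ : 0 < β) (h : RegSol Φ β f₀ T f) {s t : ℝ}
    (hs : 0 ≤ s) (hst : s ≤ t) (ht : t ≤ T) (x v : E3) :
    survival f s t x v = (K1.collOf hΦ).damp (K1.fhat T f) s t x v := by
  have hsT : s ∈ Icc 0 T := ⟨hs, hst.trans ht⟩
  have htT : t ∈ Icc 0 T := ⟨hs.trans hst, ht⟩
  have h0T : (0 : ℝ) ∈ Icc 0 T := ⟨le_rfl, hsT.1.trans hsT.2⟩
  rw [K1.damp_fhat hΦ hβ h x v hs hst ht, K1.surv_fhat hβ h x v hs hst ht]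
  unfold K1.prim survival
  rw [intervalIntegral.integral_interval_sub_left
    (K1.intervalIntegrable_nR hβ h _ v h0T htT) (K1.intervalIntegrable_nR hβ h _ v h0T hsT)]
  have e : ∀ r : ℝ, K1.nR f r (x - t • v + r • v) v =
      Real.pi * ∫ w : E3, ‖v - w‖ * f r (x - (t - r) • v, w) := by
    intro r
    have e1 : x - t • v + r • v = x - (t - r) • v := by module
    rw [K1.nR, disk_eq, e1]
  simp only [e]

/-- The data of the mild equation of `f`. -/
def DF (hΦ : IsPotential Φ) (hT : 0 < T) (h : RegSol Φ β f₀ T f) : MildData :=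
  (K1.collOf hΦ).data (K1.f0hat f₀) (K1.measurable_f0hat hT h) (K1.fhat T f) (K1.jm_fhat h)

theorem isSol_DF (hΦ : IsPotential Φ) (hβ : 0 < β) (hT : 0 < T) (h : RegSol Φ β f₀ T f) :
    (DF hΦ hT h).IsSol (K1.gainOf hΦ) T (K1.fhat T f) := by
  obtain ⟨_, h1⟩ := K1.mild_of_regular hΦ hβ hT h
  exact h1

theorem freeFlight_eq (hΦ : IsPotential Φ) (hβ : 0 < β) (hT : 0 < T) (h : RegSol Φ β f₀ T f)
    {t : ℝ} (ht : t ∈ Icc 0 T) :
    (fun ζ : Ph => (DF hΦ hT h).g₀ t ζ.1 ζ.2) = freeFlight f t := by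
  funext ζ
  rw [freeFlight, survival_eq hΦ hβ h le_rfl ht.1 ht.2, h.init]
  rfl

theorem duhamel_eq (hΦ : IsPotential Φ) (hβ : 0 < β) (hT : 0 < T) (h : RegSol Φ β f₀ T f)
    {a b : Dens} (ma : JM a) (mb : JM b) {b' : ℝ → Ph → ℝ≥0∞}
    (hb : ∀ s ∈ Icc 0 T, ∀ x v, b' s (x, v) = b s x v) {t : ℝ} (ht : t ∈ Icc 0 T) (ζ : Ph) :
    (DF hΦ hT h).duh (K1.gainOf hΦ) a b t ζ.1 ζ.2 =
      duhamel (gradient Φ) f (fun s ζ => a s ζ.1 ζ.2) b' t ζ := by
  refine setLIntegral_congr_fun measurableSet_Ioc fun s hs => ?_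
  have e : (fun w => b' s (ζ.1 - (t - s) • ζ.2, w)) = b s (ζ.1 - (t - s) • ζ.2) :=
    funext fun w => hb s (mem_Icc_of_Ioc ht hs) _ w
  simp only
  rw [e, survival_eq hΦ hβ h hs.1.le hs.2 ht.2, gain_eq hΦ (ma.slice s _) (mb.slice s _)]
  rfl

theorem isJumpLaw_gJ (hΦ : IsPotential Φ) (hβ : 0 < β) (hT : 0 < T) (h : RegSol Φ β f₀ T f) :
    IsJumpLaw (gradient Φ) f T
      fun k t ζ => gJ (K1.gainOf hΦ) (DF hΦ hT h) (K1.fhat T f) k t ζ.1 ζ.2 := fun _ ht =>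
  ⟨freeFlight_eq hΦ hβ hT h ht, fun k => funext fun ζ =>
    duhamel_eq hΦ hβ hT h (jm_gJ (K1.jm_fhat h) k) (K1.jm_fhat h)
      (fun _ hs x v => (K1.fhat_of_mem hs x v).symm) ht ζ⟩

theorem isWildSum_gW (hΦ : IsPotential Φ) (hβ : 0 < β) (hT : 0 < T) (h : RegSol Φ β f₀ T f) :
    IsWildSum (gradient Φ) f T fun k t ζ => gW (K1.gainOf hΦ) (DF hΦ hT h) k t ζ.1 ζ.2 := by
  intro t ht
  refine ⟨?_, fun n => funext fun ζ => ?_⟩
  · simp only [gW_zero]
    exact freeFlight_eq hΦ hβ hT h ht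
  · simp only [gW_succ]
    exact Finset.sum_congr rfl fun k _ =>
      duhamel_eq hΦ hβ hT h (jm_gW k) (jm_gW (n - k)) (fun _ _ _ _ => rfl) ht ζ

theorem lintegral_fhat (h : RegSol Φ β f₀ T f) {t : ℝ} (ht : t ∈ Icc 0 T) :
    ∫⁻ z : Ph, K1.fhat T f t z.1 z.2 = 1 := by
  simp only [K1.fhat_of_mem ht]
  rw [← ofReal_integral_eq_lintegral_ofReal (h.integral_eq t ht).1
    (Eventually.of_forall (h.nonneg t ht)), (h.integral_eq t ht).2, ENNReal.ofReal_one]

/-! ### Asymptotic one-sided comparison -/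

/-- `A` is asymptotically at most `B`, and both are bounded. -/
def Cl {ι : Type*} (l : Filter ι) (A B : ι → ℝ≥0∞) : Prop :=
  (∃ C ≠ ∞, ∀ᶠ i in l, A i ≤ C ∧ B i ≤ C) ∧ Tendsto (fun i => A i - B i) l (𝓝 0)

section Cl

variable {ι : Type*} {l : Filter ι} {A B A' B' : ι → ℝ≥0∞}

theorem Cl.refl {C : ℝ≥0∞} (hC : C ≠ ∞) (h : ∀ i, A i ≤ C) : Cl l A A :=
  ⟨⟨C, hC, Eventually.of_forall fun i => ⟨h i, h i⟩⟩, by
    simp only [tsub_self]
    exact tendsto_const_nhds⟩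

theorem Cl.zero (hA : ∀ᶠ i in l, A i = 0 ∧ B i = 0) : Cl l A B := by
  refine ⟨⟨0, ENNReal.zero_ne_top, hA.mono fun i hi => ⟨hi.1.le, hi.2.le⟩⟩, ?_⟩
  refine tendsto_const_nhds.congr' (hA.mono fun i hi => ?_)
  simp only [hi.1, zero_tsub]

theorem Cl.mul (h : Cl l A B) (h' : Cl l A' B') :
    Cl l (fun i => A i * A' i) (fun i => B i * B' i) := by
  obtain ⟨⟨C, hC, h1⟩, h2⟩ := h
  obtain ⟨⟨C', hC', h3⟩, h4⟩ := h'
  refine ⟨⟨C * C', ENNReal.mul_ne_top hC hC', ?_⟩, ?_⟩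
  · filter_upwards [h1, h3] with i hi hi'
    exact ⟨mul_le_mul' hi.1 hi'.1, mul_le_mul' hi.2 hi'.2⟩
  · have h5 := (ENNReal.Tendsto.mul_const h2 (Or.inr hC')).add
      (ENNReal.Tendsto.const_mul h4 (Or.inr hC))
    rw [zero_mul, mul_zero, add_zero] at h5
    refine tendsto_of_tendsto_of_tendsto_of_le_of_le' tendsto_const_nhds h5
      (Eventually.of_forall fun _ => zero_le) ?_
    filter_upwards [h1, h3] with i hi hi'
    refine (mul_tsub_mul_le _ _ _ _).trans ?_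
    gcongr
    · exact hi'.1
    · exact hi.2

theorem Cl.prod {κ : Type*} {A B : κ → ι → ℝ≥0∞} (S : Finset κ) (h : ∀ k, Cl l (A k) (B k)) :
    Cl l (fun i => ∏ k ∈ S, A k i) (fun i => ∏ k ∈ S, B k i) := by
  classical
  induction S using Finset.induction_on with
  | empty => exact Cl.refl ENNReal.one_ne_top fun _ => by simp
  | insert k S hk ih =>
    simp only [Finset.prod_insert hk]
    exact (h k).mul ih

end Cl

/-! ### The trees of `f` and the trees of the truncated gas -/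

variable {hΦ : IsPotential Φ} {m₀ : Measurable fun p : E3 × E3 => K1.f0hat f₀ p.1 p.2}
  (K : KinFamily hΦ f₀ m₀ T f)

/-- The legs of the trees of `f`. -/
abbrev lf (hΦ : IsPotential Φ) (T : ℝ) (f : ℝ → Ph → ℝ) : ℝ → ℝ → Ph → ℝ≥0∞ :=
  dlg (K1.collOf hΦ) (K1.fhat T f)

theorem lf_le_leg (h : RegSol Φ β f₀ T f) {L : ℕ} (hL : K.L₀ ≤ L + 1) {r t : ℝ} (hr : 0 ≤ r)
    (ht : t ≤ T) (l : Ph) : lf hΦ T f r t l ≤ K.leg L r t l +
      ENNReal.ofReal (K.e (L + 1) * ((K1.collOf hΦ).R K.b * (1 + ‖l.2‖))) * ENNReal.ofReal T := by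
  refine en_le_en_add ?_
  unfold Coll.dampArg
  set c := ENNReal.ofReal (K.e (L + 1) * ((K1.collOf hΦ).R K.b * (1 + ‖l.2‖)))
  calc _ ≤ ∫⁻ τ in Ioc r t, ((K1.collOf hΦ).nu
        (K1.fhat T f τ (l.1 + t • l.2 - (t - τ) • l.2)) l.2 + c) := by
        refine setLIntegral_mono' measurableSet_Ioc fun τ hτ => ?_
        refine ((K1.collOf hΦ).nu_mono (fun w => K.u_close (L + 1) hL τ
          ⟨hr.trans hτ.1.le, hτ.2.trans ht⟩ _ w) l.2).trans ?_
        rw [(K1.collOf hΦ).nu_add ((K1.jm_fhat h).slice τ _)]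
        exact add_le_add le_rfl ((K1.collOf hΦ).nu_gs (K.e0 _) K.b0 l.2)
    _ ≤ _ := by
        rw [lintegral_add_right _ measurable_const, setLIntegral_const, Real.volume_Ioc]
        gcongr
        linarith

theorem cl_leg (h : RegSol Φ β f₀ T f) {ι : Type*} {l : Filter ι} {L : ι → ℕ}
    (hL : Tendsto L l atTop) {t : ι → ℝ} (ht : ∀ᶠ i in l, t i ≤ T) {r : ℝ} (hr : 0 ≤ r) (y : Ph) :
    Cl l (fun i => lf hΦ T f r (t i) y) (fun i => K.leg (L i) r (t i) y) := by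
  refine ⟨⟨1, ENNReal.one_ne_top, Eventually.of_forall fun i => ⟨en_le_one _, en_le_one _⟩⟩, ?_⟩
  have h1 : Tendsto (fun i => K.e (L i + 1) * ((K1.collOf hΦ).R K.b * (1 + ‖y.2‖))) l (𝓝 0) := by
    have := (K.e_tendsto.comp ((tendsto_add_atTop_nat 1).comp hL)).mul_const
      ((K1.collOf hΦ).R K.b * (1 + ‖y.2‖))
    rwa [zero_mul] at this
  have h2 := ENNReal.Tendsto.mul_const (ENNReal.tendsto_ofReal h1)
    (Or.inr (ENNReal.ofReal_ne_top (r := T)))
  rw [ENNReal.ofReal_zero, zero_mul] at h2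
  refine tendsto_of_tendsto_of_tendsto_of_le_of_le' tendsto_const_nhds h2
    (Eventually.of_forall fun _ => zero_le) ?_
  filter_upwards [ht, hL.eventually_ge_atTop K.L₀] with i hi hi'
  exact tsub_le_iff_left.2 (lf_le_leg K h (hi'.trans (Nat.le_succ _)) hr hi y)

theorem cl_kw (h : RegSol Φ β f₀ T f) {ι : Type*} {l : Filter ι} {L : ι → ℕ}
    (hL : Tendsto L l atTop) : ∀ (τ : Shape) {t : ι → ℝ} (_ : ∀ᶠ i in l, t i ≤ T) (y : Ph) (p : PD τ),
      Cl l (fun i => kw Φ (lf hΦ T f) (gE f₀) τ (t i) y p)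
        (fun i => kw Φ (K.leg (L i)) (gE f₀) τ (t i) y p)
  | .leaf, _, ht, y, _ =>
    (Cl.refl (gE_ne_top y) fun _ => le_rfl).mul (cl_leg K h hL ht le_rfl y)
  | .node a b, t, ht, y, p => by
    by_cases hp : p.1.1 ∈ Ioc 0 T
    · have hc : ∀ᶠ _ in l, p.1.1 ≤ T := Eventually.of_forall fun _ => hp.2
      have h1 : Cl l (fun i => (Ioc 0 (t i)).indicator (fun _ => (1 : ℝ≥0∞)) p.1.1)
          (fun i => (Ioc 0 (t i)).indicator (fun _ => (1 : ℝ≥0∞)) p.1.1) :=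
        Cl.refl ENNReal.one_ne_top fun _ => indicator_le_self' (fun _ _ => zero_le) _
      exact (h1.mul (cl_leg K h hL ht hp.1.le y)).mul
        ((Cl.refl (nw_ne_top y.2 p.1) fun _ => le_rfl).mul
          ((cl_kw h hL a hc _ p.2.1).mul (cl_kw h hL b hc _ p.2.2)))
    · refine Cl.zero (ht.mono fun i hi => ?_)
      have h1 : p.1.1 ∉ Ioc 0 (t i) := fun h' => hp ⟨h'.1, h'.2.trans hi⟩
      simp only [kw, indicator_of_notMem h1, zero_mul, and_self]

theorem kw_lf_le (τ : Shape) {t : ℝ} (ht : t ≤ T) (x : Ph × PD τ) :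
    kw Φ (lf hΦ T f) (gE f₀) τ t x.1 x.2 ≤ dw Φ f₀ T τ x := by
  rw [kw_eq]
  unfold dw kw0
  split_ifs with ho
  · rw [ML.ind_of_true (ordd_mono τ ht ho), one_mul, one_mul]
    gcongr
    exact mul_le_of_le_one_right' (legW_le_one (fun _ _ _ => en_le_one _) τ t _ _)
  · rw [zero_mul]
    exact zero_le

theorem measurable_kw_lf (h : RegSol Φ β f₀ T f) (hgm : Measurable (gE f₀)) (τ : Shape) (t : ℝ) :
    Measurable fun x : Ph × PD τ => kw Φ (lf hΦ T f) (gE f₀) τ t x.1 x.2 :=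
  (measurable_kw hΦ (measurable_dlg _ (K1.jm_fhat h)) hgm τ).comp
    (by fun_prop : Measurable fun x : Ph × PD τ => ((t, x.1, x.2) : ℝ × Ph × PD τ))

theorem tendsto_kw (hT : 0 < T) (h : RegSol Φ β f₀ T f) (hg : GoodDatum f₀ κ) {s : ℕ}
    (τ : Fin s → Shape) :
    Tendsto (fun q : ℕ × ℝ => ∫⁻ x, (∏ k, kw Φ (lf hΦ T f) (gE f₀) (τ k) q.2 (x k).1 (x k).2 -
      ∏ k, kk K q.1 (τ k) q.2 (x k)) ∂(mref τ)) (atTop ×ˢ 𝓟 (Icc 0 T)) (𝓝 0) := by
  have hgm := measurable_gE hg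
  have ht : ∀ᶠ q : ℕ × ℝ in atTop ×ˢ 𝓟 (Icc 0 T), q.2 ≤ T :=
    eventually_prod_principal_iff.2 (Eventually.of_forall fun _ _ ht => ht.2)
  have h1 := tendsto_lintegral_filter_of_dominated_convergence (μ := mref τ)
    (l := (atTop : Filter ℕ) ×ˢ 𝓟 (Icc 0 T)) (f := fun _ => 0)
    (F := fun q x => ∏ k, kw Φ (lf hΦ T f) (gE f₀) (τ k) q.2 (x k).1 (x k).2 -
      ∏ k, kk K q.1 (τ k) q.2 (x k)) (fun x => ∏ k, dw Φ f₀ T (τ k) (x k))
    (Eventually.of_forall fun q => Measurable.sub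
      (Finset.measurable_prod _ fun k _ =>
        (measurable_kw_lf h hgm (τ k) q.2).comp (measurable_pi_apply k))
      (Finset.measurable_prod _ fun k _ =>
        (measurable_kk K hgm q.1 (τ k) q.2).comp (measurable_pi_apply k)))
    (ht.mono fun q hq => Eventually.of_forall fun x => tsub_le_self.trans
      (Finset.prod_le_prod' fun k _ => kw_lf_le (τ k) hq (x k)))
    (lintegral_prod_dw K hg hT.le τ)
    (Eventually.of_forall fun x => (Cl.prod Finset.univ fun k =>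
      cl_kw K h tendsto_fst (τ k) ht (x k).1 (x k).2).2)
  rwa [lintegral_zero] at h1

variable {hT : 0 < T} {h : RegSol Φ β f₀ T f}

theorem pS_eq_kd : ∀ (τ : Shape) (t : ℝ) (l : Ph),
    pS (K1.gainOf hΦ) (DF hΦ hT h) τ t (l.1 + t • l.2) l.2 = kd Φ (lf hΦ T f) (gE f₀) τ t l
  | .leaf, t, l => by
    rw [kd_leaf]
    change K1.f0hat f₀ (l.1 + t • l.2 - t • l.2) l.2 * _ = _
    rw [add_sub_cancel_right]
    rfl
  | .node a b, t, l => by
    rw [kd_node (lg := lf hΦ T f) (F₀ := gE f₀) hΦ (measurable_dlg _ (K1.jm_fhat h))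
      (K1.measurable_f0hat hT h)]
    refine lintegral_congr fun s => ?_
    have e1 : l.1 + t • l.2 - (t - s) • l.2 = l.1 + s • l.2 := by module
    have e2 : ∀ c : Shape, (∀ (t : ℝ) (l : Ph), pS (K1.gainOf hΦ) (DF hΦ hT h) c t
        (l.1 + t • l.2) l.2 = kd Φ (lf hΦ T f) (gE f₀) c t l) →
        (fun w => kd Φ (lf hΦ T f) (gE f₀) c s (lineAt s (l.1 + s • l.2) w)) =
          pS (K1.gainOf hΦ) (DF hΦ hT h) c s (l.1 + s • l.2) := by
      intro c hc
      funext w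
      rw [← hc s (lineAt s (l.1 + s • l.2) w)]
      unfold lineAt
      simp only
      rw [sub_add_cancel]
    rw [e1, ← e2 a (pS_eq_kd a), ← e2 b (pS_eq_kd b)]
    rfl

theorem pS_le (hβ : 0 < β) (τ : Shape) {t : ℝ} (ht : t ∈ Icc 0 T) (x v : E3) :
    pS (K1.gainOf hΦ) (DF hΦ hT h) τ t x v ≤ K1.fhat T f t x v := by
  refine le_trans ?_ ((isSol_DF hΦ hβ hT h).pic_le _ (τ.depth + 1) ht x v)
  rw [← sum_pS]
  exact Finset.single_le_sum (f := fun τ => pS (K1.gainOf hΦ) (DF hΦ hT h) τ t x v)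
    (fun _ _ => zero_le) (mem_shapes.2 le_rfl)

theorem fhat_ne_top (t : ℝ) (x v : E3) : K1.fhat T f t x v ≠ ∞ :=
  ne_top_of_le_ne_top ENNReal.ofReal_ne_top (indicator_le_self' (fun _ _ => zero_le) t)

theorem lintegral_pS (hβ : 0 < β) (hg : GoodDatum f₀ κ) {s : ℕ} (τ : Fin s → Shape) {t : ℝ}
    (ht : t ∈ Icc 0 T) {a : (Fin s → Ph) → ℝ≥0∞} (ha : Measurable a) :
    ∫⁻ ζ, a ζ * ∏ k, pS (K1.gainOf hΦ) (DF hΦ hT h) (τ k) t (ζ k).1 (ζ k).2 =
      ∫⁻ x, a (fun k => KU.free t (x k).1) *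
        ∏ k, kw Φ (lf hΦ T f) (gE f₀) (τ k) t (x k).1 (x k).2 ∂(mref τ) := by
  have hf : Measurable (KU.free t) := (KU.free_preserving t).measurable
  have hfp : Measurable fun (y : Fin s → Ph) k => KU.free t (y k) :=
    measurable_pi_iff.2 fun k => hf.comp (measurable_pi_apply k)
  have hm : Measurable fun ζ : Fin s → Ph =>
      a ζ * ∏ k, pS (K1.gainOf hΦ) (DF hΦ hT h) (τ k) t (ζ k).1 (ζ k).2 :=
    ha.mul (Finset.measurable_prod _ fun k _ => (jm_pS (τ k)).comp measurable_const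
      (measurable_pi_apply k).fst (measurable_pi_apply k).snd)
  rw [← (free_preserving_pi s t).lintegral_comp hm,
    ← lintegral_fst_prod τ (g := fun k x => kw Φ (lf hΦ T f) (gE f₀) (τ k) t x.1 x.2)
      (fun k => measurable_kw_lf h (measurable_gE hg) (τ k) t)
      (fun k x => ne_top_of_le_ne_top (ENNReal.mul_ne_top (ML.ind_ne_top _) (kw0_ne_top _ x))
        (kw_lf_le (τ k) ht.2 x)) (fun k l => ?_) (a := fun y => a (fun k => KU.free t (y k)))
      (ha.comp hfp)]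
  · refine lintegral_congr fun y => ?_
    congr 1
    exact Finset.prod_congr rfl fun k _ => pS_eq_kd (τ k) t (y k)
  · have h1 := pS_le (hΦ := hΦ) (hT := hT) (h := h) hβ (τ k) ht (l.1 + t • l.2) l.2
    rw [pS_eq_kd] at h1
    exact ne_top_of_le_ne_top (fhat_ne_top _ _ _) h1

include K in
theorem exists_depth (hβ : 0 < β) (s : ℕ) {δ : ℝ≥0∞} (hδ : 0 < δ) : ∃ d : ℕ, ∀ t ∈ Icc 0 T,
    ∫⁻ ζ : Fin s → Ph, (∏ k, K1.fhat T f t (ζ k).1 (ζ k).2 -
      ∏ k, (DF hΦ hT h).pic (K1.gainOf hΦ) (d + 1) t (ζ k).1 (ζ k).2) ≤ δ := by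
  have hsol := isSol_DF hΦ hβ hT h
  have hb := K.b0
  set G := K1.gainOf hΦ
  set C := K.M * ∑' n, G.coef K.M K.b T n
  have hC : 0 ≤ C := mul_nonneg K.M0 (tsum_nonneg fun n => G.coef_nonneg K.M0 hT.le n)
  have hx : ∀ t ∈ Icc 0 T, ∀ v, xint (K1.fhat T f) t v ≤ gs C (K.b / 2) v := fun t ht v =>
    hsol.xint_le _ K.M0 hT.le hb le_rfl K.M0 (fun t _ => K.f_le t)
      (fun t _ v => xint_data_le (G := K1.collOf hΦ) K.f0_mass ⟨_, K1.jm_fhat h⟩ t v) ht v
  have h1 : Tendsto (fun n => C * G.coef K.M (K.b / 2) T n *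
      (Real.pi / (K.b / 2 / 2)) ^ (3 / 2 : ℝ)) atTop (𝓝 0) := by
    have := ((G.coef_tendsto_zero (b := K.b / 2) K.M0 (by positivity) hT.le).const_mul
      C).mul_const ((Real.pi / (K.b / 2 / 2)) ^ (3 / 2 : ℝ))
    rwa [mul_zero, zero_mul] at this
  have h2 := ENNReal.Tendsto.const_mul (a := (s : ℝ≥0∞) * 1 ^ (s - 1))
    (ENNReal.tendsto_ofReal (h1.comp (tendsto_add_atTop_nat 1))) (Or.inr (by simp))
  rw [ENNReal.ofReal_zero, mul_zero] at h2
  obtain ⟨d, hd⟩ := (h2.eventually (ge_mem_nhds hδ)).exists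
  refine ⟨d, fun t ht => le_trans ?_ hd⟩
  have m1 : Measurable fun z : Ph => K1.fhat T f t z.1 z.2 :=
    (K1.jm_fhat h).comp measurable_const measurable_fst measurable_snd
  have m2 : Measurable fun z : Ph => (DF hΦ hT h).pic G (d + 1) t z.1 z.2 :=
    ((DF hΦ hT h).jm_pic (d + 1)).comp measurable_const measurable_fst measurable_snd
  refine (lintegral_prod_tsub_le m1 m2 (lintegral_fhat h ht).le
    ((lintegral_mono fun z : Ph => hsol.pic_le _ _ ht z.1 z.2).trans (lintegral_fhat h ht).le)).trans ?_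
  gcongr
  exact lintegral_ph_le (h := fun x v => (DF hΦ hT h).rem G (K1.fhat T f) (d + 1) t x v)
    (m1.sub m2) (mul_nonneg hC (G.coef_nonneg K.M0 hT.le _)) (by positivity) fun v =>
      hsol.xint_rem_le _ K.M0 hT.le (by positivity) (by linarith) hC (fun t _ => K.f_le t) hx
        (d + 1) ht v

theorem measurable_mark {s : ℕ} {a : (Fin s → Ph × ℕ) → ℝ≥0∞} (ha : Measurable a)
    (n : Fin s → ℕ) : Measurable fun ζ : Fin s → Ph => a fun k => (ζ k, n k) :=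
  ha.comp (measurable_pi_iff.2 fun k => (measurable_pi_apply k).prodMk measurable_const)

theorem Split.measurable_mark {G : Gain} {D : MildData} {F : Dens} {m : Shape → ℕ} {g : ℕ → Dens}
    (H : Split G D T F m g) {s : ℕ} {a : (Fin s → Ph × ℕ) → ℝ≥0∞} (ha : Measurable a) (t : ℝ)
    (n : Fin s → ℕ) : Measurable fun ζ : Fin s → Ph =>
      a (fun k => (ζ k, n k)) * ∏ k, g (n k) t (ζ k).1 (ζ k).2 :=
  (N119.measurable_mark ha n).mul (Finset.measurable_prod _ fun k _ => (H.jm (n k)).comp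
    measurable_const (measurable_pi_apply k).fst (measurable_pi_apply k).snd)

/-- **The marked product law is bounded by the trees of the truncated gas.** -/
theorem kin_le (hβ : 0 < β) (hg : GoodDatum f₀ κ) {m : Shape → ℕ} {g : ℕ → Dens}
    (H : Split (K1.gainOf hΦ) (DF hΦ hT h) T (K1.fhat T f) m g) (s : ℕ) {δ : ℝ≥0∞} (hδ : 0 < δ) :
    ∀ᶠ L in atTop, ∀ t ∈ Icc 0 T, ∀ a : (Fin s → Ph × ℕ) → ℝ≥0∞, Measurable a → (∀ y, a y ≤ 1) →
      ∑' n : Fin s → ℕ, ∫⁻ ζ : Fin s → Ph,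
          a (fun k => (ζ k, n k)) * ∏ k, g (n k) t (ζ k).1 (ζ k).2 ≤
        ∑ τ ∈ Fintype.piFinset (fun _ : Fin s => shapes L), ∫⁻ x,
          a (fun k => (KU.free t (x k).1, m (τ k))) * ∏ k, kk K L (τ k) t (x k) ∂(mref τ) + δ := by
  have hgm := measurable_gE hg
  have hδ2 : 0 < δ / 2 := ENNReal.half_pos hδ.ne'
  obtain ⟨d, hd⟩ := exists_depth (hT := hT) (h := h) K hβ s hδ2
  set S := Fintype.piFinset (fun _ : Fin s => shapes d)
  have h1 := tendsto_finsetSum S fun τ _ => tendsto_kw K hT h hg τ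
  rw [Finset.sum_const_zero] at h1
  have h2 := eventually_prod_principal_iff.1 (h1.eventually (ge_mem_nhds hδ2))
  filter_upwards [h2, eventually_ge_atTop d] with L hL hdL t ht a ha ha1
  have mp : ∀ τ : Fin s → Shape, Measurable fun ζ : Fin s → Ph => a (fun k => (ζ k, m (τ k))) *
      ∏ k, pS (K1.gainOf hΦ) (DF hΦ hT h) (τ k) t (ζ k).1 (ζ k).2 := fun τ =>
    (measurable_mark ha _).mul (Finset.measurable_prod _ fun k _ => (jm_pS (τ k)).comp
      measurable_const (measurable_pi_apply k).fst (measurable_pi_apply k).snd)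
  rw [← lintegral_tsum fun n => (H.measurable_mark ha t n).aemeasurable]
  refine (lintegral_mono fun ζ => H.tuple_le (isSol_DF hΦ hβ hT h) fhat_ne_top d ht ζ
    (a := fun n => a fun k => (ζ k, n k)) fun _ => ha1 _).trans ?_
  rw [lintegral_add_left (Finset.measurable_fun_sum _ fun τ _ => mp τ),
    lintegral_finsetSum _ fun τ _ => mp τ, ← ENNReal.add_halves δ, ← add_assoc]
  refine add_le_add ?_ (hd t ht)
  have h3 : ∀ τ ∈ S, ∫⁻ ζ : Fin s → Ph, a (fun k => (ζ k, m (τ k))) *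
      ∏ k, pS (K1.gainOf hΦ) (DF hΦ hT h) (τ k) t (ζ k).1 (ζ k).2 ≤
      ∫⁻ x, a (fun k => (KU.free t (x k).1, m (τ k))) * ∏ k, kk K L (τ k) t (x k) ∂(mref τ) +
      ∫⁻ x, (∏ k, kw Φ (lf hΦ T f) (gE f₀) (τ k) t (x k).1 (x k).2 -
        ∏ k, kk K L (τ k) t (x k)) ∂(mref τ) := by
    intro τ _
    rw [lintegral_pS hβ hg τ ht (measurable_mark ha _)]
    exact lintegral_mul_le_of_le_one (fun _ => ha1 _)
      (Finset.measurable_prod _ fun k _ =>
        (measurable_kw_lf h hgm (τ k) t).comp (measurable_pi_apply k))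
      (Finset.measurable_prod _ fun k _ =>
        (measurable_kk K hgm L (τ k) t).comp (measurable_pi_apply k))
  refine (Finset.sum_le_sum h3).trans ?_
  rw [Finset.sum_add_distrib]
  refine add_le_add (Finset.sum_le_sum_of_subset fun τ hτ => ?_) (hL t ht)
  exact Fintype.mem_piFinset.2 fun k =>
    mem_shapes.2 ((mem_shapes.1 (Fintype.mem_piFinset.1 hτ k)).trans hdL)

end Vale.Agent.N119
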