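import Vale.Agent.N119.Trees
import Vale.Agent.N119.Kin
import Vale.Agent.N119.Expo

/-!
# Convergence of the marked marginals
-/

open MeasureTheory Filter Topology Set
open scoped ENNReal

noncomputable section

namespace Vale.Agent.N119

open Vale.Agent.P119 Vale.Agent.P119.GC Vale.Agent.P119.END Vale.Agent.P119.KE Vale.Agent.P119.KT
  Vale.Agent.P119.M Vale.Agent.P119.M.CTree

variable {Φ : E3 → ℝ} {β T κ ε t : ℝ} {f₀ : Ph → ℝ} {f : ℝ → Ph → ℝ} {L s : ℕ}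

/-! ### Living trees of given shapes -/

theorem tuple_ge (hΦ : IsPotential Φ) (h : GoodDatum f₀ κ) (hε : 0 < ε)
    {a : (Fin s → Ph) → ℝ≥0∞} (ha : Measurable a) (ha1 : ∀ z, a z ≤ 1) (τ : Fin s → Shape) :
    ENNReal.ofReal (mu ε) ^ s * ∫⁻ x, a (fun k => KU.free t (x k).1) *
        ((∏ k, tw Φ ε (gE f₀) (τ k) (x k)) * Bx Φ ε L f₀ t τ x) ∂(mref τ) ≤
      ∫⁻ c, ∑ z ∈ tup (nlv τ) (pts c), fun_ Φ ε L t a τ z (pts c : Set Ph) ∂(PP f₀ ε) := by
  classical
  have hfi := isFiniteMeasure_inten (ε := ε) h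
  have hCm := measurable_Cz (L := L) (t := t) hΦ h hε ha τ
  have e0 : ∫⁻ c, ∑ z ∈ tup (nlv τ) (pts c), fun_ Φ ε L t a τ z (pts c : Set Ph) ∂(PP f₀ ε) =
      ∫⁻ z in {z | PW (Cx ε) z}, ∫⁻ c in {c | Cmp (Cx ε) z (pts c)},
        fun_ Φ ε L t a τ z (wz z (pts c)) ∂(PP f₀ ε) ∂(Measure.pi fun _ => inten f₀ ε) := by
    rw [← gnz_PP h hε.le (nlv τ) (F := fun z w => fun_ Φ ε L t a τ z (wz z w))
      (measurable_fun hΦ hε ha τ)]
    refine lintegral_congr fun c => Finset.sum_congr rfl fun z hz => ?_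
    rw [wz_sdiff hz]
  have e1 : ∫⁻ z in {z | PW (Cx ε) z}, ∫⁻ c in {c | Cmp (Cx ε) z (pts c)},
      fun_ Φ ε L t a τ z (wz z (pts c)) ∂(PP f₀ ε) ∂(Measure.pi fun _ => inten f₀ ε) =
      ∫⁻ z, Cz Φ ε L f₀ t a τ z ∂(Measure.pi fun _ : Fin (nlv τ) => inten f₀ ε) := by
    unfold Cz
    rw [lintegral_indicator (measurableSet_PW (measurableSet_Cx ε))]
  have e2 : ∫⁻ z, Cz Φ ε L f₀ t a τ z ∂(Measure.pi fun _ : Fin (nlv τ) => inten f₀ ε) =
      ∫⁻ y, Cz Φ ε L f₀ t a τ (joinPi (fun k => (τ k).card) y)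
        ∂(Measure.pi fun k => Measure.pi fun _ : Fin (τ k).card => inten f₀ ε) :=
    ((joinPi_preserving (fun k => (τ k).card) (inten f₀ ε)).lintegral_comp hCm).symm
  have hFm : Measurable fun y : ∀ k, Fin (τ k).card → Ph =>
      Cz Φ ε L f₀ t a τ (joinPi (fun k => (τ k).card) y) := hCm.comp (measurable_joinPi _)
  rw [e0, e1, e2]
  refine le_trans (le_of_eq ?_) (lintegral_mono (indicator_le_self
    {y : ∀ k, Fin (τ k).card → Ph | ∀ k, ok Φ ε ((τ k).ord (y k))} _))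
  rw [lintegral_tuple hΦ h hε τ hFm]
  congr 1
  refine lintegral_congr fun x => ?_
  by_cases hx : ∏ k, tw Φ ε (gE f₀) (τ k) (x k) = 0
  · rw [hx, zero_mul, zero_mul, mul_zero]
  · have hg : ∀ k, good Φ (τ k) (x k).1.2 (x k).2 := by
      intro k
      have h1 : tw Φ ε (gE f₀) (τ k) (x k) ≠ 0 := fun h0 => hx
        (Finset.prod_eq_zero (Finset.mem_univ k) h0)
      unfold tw at h1
      exact (wt_ne_zero_iff (τ k) (x k).1.2 (x k).2).1 (left_ne_zero_of_mul h1)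
    have h3 : Cz Φ ε L f₀ t a τ (joinPi (fun k => (τ k).card) (bkt Φ ε τ x)) =
        a (fun k => KU.free t (x k).1) * Bx Φ ε L f₀ t τ x :=
      Cz_zx (L := L) (f₀ := f₀) (t := t) (a := a) hΦ hε τ hg
        ((ha1 _).trans_lt ENNReal.one_lt_top).ne
    rw [h3]
    ring

/-- Tuples of living trees without common leaves are determined by their roots. -/
theorem sum_trees_le' (hΦ : IsPotential Φ) (hε : 0 < ε)
    (a : (Fin s → Shape) → (Fin s → Ph) → ℝ≥0∞) (w : Finset Ph) (g : (Fin s → Ph) → ℝ≥0∞)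
    (hg : ∀ τ z, allive Φ ε L t τ z (w : Set Ph) → (fun k => rpt (ftree τ z k)) ∈ tup s w →
      a τ (fun k => st Φ ε (ftree τ z k) t) ≤ g fun k => rpt (ftree τ z k)) :
    ∑ τ ∈ Fintype.piFinset (fun _ : Fin s => shapes L), ∑ z ∈ tup (nlv τ) w,
      fun_ Φ ε L t (a τ) τ z (w : Set Ph) ≤ ∑ y ∈ tup s w, g y := by
  classical
  have hfin : (world (w : Set Ph)).Finite := w.finite_toSet.image _
  rw [Finset.sum_sigma']
  set S := (Fintype.piFinset (fun _ : Fin s => shapes L)).sigma fun τ => tup (nlv τ) w with hS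
  set S' := S.filter fun p => allive Φ ε L t p.1 p.2 (w : Set Ph) with hS'
  set r : (Σ τ : Fin s → Shape, (Fin (nlv τ) → Ph)) → (Fin s → Ph) :=
    fun p k => rpt (ftree p.1 p.2 k) with hr
  have hmem : ∀ p ∈ S', r p ∈ tup s w := by
    intro p hp
    obtain ⟨hp1, hp2⟩ := Finset.mem_filter.1 hp
    obtain ⟨-, hp3⟩ := Finset.mem_sigma.1 hp1
    refine mem_tup.2 ⟨fun k => ?_, fun k l hkl => ?_⟩
    · have h6 := (hp2 k).1.sub (ftree p.1 p.2 k).root_mem_leaves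
      rw [← src_rpt (hp2 k).1.sub] at h6
      obtain ⟨x, hx, hxe⟩ := h6
      have h7 : rpt (ftree p.1 p.2 k) = x := src_injective hxe.symm
      change rpt (ftree p.1 p.2 k) ∈ w
      rw [h7]
      exact hx
    · by_contra hne
      have h6 : (ftree p.1 p.2 k).root = (ftree p.1 p.2 l).root := by
        rw [← src_rpt (hp2 k).1.sub, ← src_rpt (hp2 l).1.sub]
        exact congrArg src hkl
      exact Set.disjoint_left.1 (disjoint_ftree p.1 (mem_tup.1 hp3).2 hne)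
        (ftree p.1 p.2 k).root_mem_leaves (h6 ▸ (ftree p.1 p.2 l).root_mem_leaves)
  have h5 : ∑ p ∈ S, fun_ Φ ε L t (a p.1) p.1 p.2 (w : Set Ph) ≤ ∑ p ∈ S', g (r p) := by
    rw [hS', Finset.sum_filter]
    refine Finset.sum_le_sum fun p hp => ?_
    unfold fun_
    split_ifs with h
    · exact hg p.1 p.2 h (hmem p (Finset.mem_filter.2 ⟨hp, h⟩))
    · exact le_rfl
  have hinj : Set.InjOn r S' := by
    intro p hp q hq hpq
    have hp' := (Finset.mem_filter.1 (Finset.mem_coe.1 hp)).2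
    have hq' := (Finset.mem_filter.1 (Finset.mem_coe.1 hq)).2
    have h6 : ∀ k, ftree p.1 p.2 k = ftree q.1 q.2 k := by
      intro k
      refine lives_unique hΦ hε hfin (hp' k).1 (hq' k).1 ?_
      rw [← src_rpt (hp' k).1.sub, ← src_rpt (hq' k).1.sub]
      exact congrArg src (congrFun hpq k)
    obtain ⟨τ, z⟩ := p
    obtain ⟨τ', z'⟩ := q
    have h7 : τ = τ' := funext fun k => Shape.mk_shape_unique (h6 k)
    subst h7
    have h8 : z = z' := blk_injective τ fun k => Shape.ord_injective (τ k) (h6 k)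
    rw [h8]
  refine h5.trans ((Finset.sum_image hinj).ge.trans (Finset.sum_le_sum_of_subset fun y hy => ?_))
  obtain ⟨p, hp, rfl⟩ := Finset.mem_image.1 hy
  exact hmem p hp

/-! ### The real gas -/

/-- The mark `m` of a particle which is not exposed is the mark `mS` of the shape of its tree. -/
def Reads (m : {N : ℕ} → ℝ → (ℝ → Fin N → Ph) → ℝ → Fin N → ℕ) (mS : Shape → ℕ) : Prop :=
  ∀ {Φ : E3 → ℝ} {ε : ℝ} {L : ℕ} {hΦ : IsPotential Φ} {hε : 0 < ε} {W : Finset Src} {N : ℕ}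
    {e : Fin N → Src} {p : ℝ → Fin N → Ph}, Lab Φ ε W e p → ∀ {t : ℝ} {i : Fin N} (τ : Shape)
    (y : Fin τ.card → Src), ¬(RB.Y Φ ε L hΦ hε).Exp W (e i) t → (τ.mk y).root = e i →
    lives Φ ε L (W : Set Src) (τ.mk y) t → ext Φ ε (τ.mk y) ≤ t → m ε p t i = mS τ

theorem spT_mk : ∀ (τ : Shape) (y : Fin τ.card → Src), spT (τ.mk y) = spS τ
  | .leaf, _ => rfl
  | .node a _, _ => congrArg (· + 1) (spT_mk a _)

theorem reads_met : Reads met spS := fun H _ _ τ y h1 h2 h3 h4 =>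
  (H.met_eq h1 h2 h3 h4).trans (spT_mk τ y)

theorem reads_cluster : Reads cluster clS := fun H _ _ τ y h1 h2 h3 h4 =>
  (H.cluster_eq h1 h2 h3 h4).trans (congrArg (· - 1) (τ.card_mk y))

theorem lab_of_gas (hΦ : IsPotential Φ) (hε : 0 < ε) {z : H369.GasFlow E3}
    (hz : H369.IsGasFlow (gradient Φ) ε z) {N : ℕ} {Z : Fin N → Ph} (hZ : Z ∈ excl ε N) :
    Lab Φ ε (RB.fworld (pts ⟨N, Z⟩)) (fun i => src (Z i)) (z N Z) where
  inj := src_injective.comp (PW.injective (Cx_irrefl hε.le) (pw_Cx.2 hZ))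
  mem a := by
    rw [← Finset.mem_coe, RB.coe_fworld]
    constructor
    · rintro ⟨y, hy, rfl⟩
      obtain ⟨i, rfl⟩ := (mem_pts_mk Z y).1 hy
      exact ⟨i, rfl⟩
    · rintro ⟨i, rfl⟩
      exact ⟨Z i, (mem_pts_mk Z _).2 ⟨i, rfl⟩, rfl⟩
  birth a ha := by
    rw [← Finset.mem_coe, RB.coe_fworld] at ha
    obtain ⟨y, -, rfl⟩ := ha
    rfl
  path τ hτ i := by
    have h3 : ∀ d d' : DecidableEq Ph, @Finset.image _ _ d Z Finset.univ =
      @Finset.image _ _ d' Z Finset.univ := fun d d' => by rw [Subsingleton.elim d d']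
    rw [RB.XR_world hΦ hε (excl_pts (c := ⟨N, Z⟩) hZ) hτ ((mem_pts_mk Z _).2 ⟨i, rfl⟩),
      H369.gas_eq_flow hΦ hε hz hZ, ← RW.R_image hΦ hε hZ τ i]
    exact congrArg (fun w => RW.R Φ ε w τ (Z i)) (h3 _ _)

variable {m : {N : ℕ} → ℝ → (ℝ → Fin N → Ph) → ℝ → Fin N → ℕ} {mS : Shape → ℕ}

theorem conf_le (hm : Reads m mS) (hΦ : IsPotential Φ) (hε : 0 < ε) {z : H369.GasFlow E3}
    (hz : H369.IsGasFlow (gradient Φ) ε z) {N : ℕ} {Z : Fin N → Ph} (hZ : Z ∈ excl ε N)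
    (ht : 0 ≤ t) {a : (Fin s → Ph × ℕ) → ℝ≥0∞} (ha1 : ∀ y, a y ≤ 1) :
    ∑ τ ∈ Fintype.piFinset (fun _ : Fin s => shapes L), ∑ y ∈ tup (nlv τ) (pts ⟨N, Z⟩),
      fun_ Φ ε L t (fun ζ => a fun k => (ζ k, mS (τ k))) τ y (pts ⟨N, Z⟩ : Set Ph) ≤
    ∑ σ : Fin s ↪ Fin N, a (fun k => (z N Z t (σ k), m ε (z N Z) t (σ k))) +
      ((tupBad s (pts ⟨N, Z⟩) (expo hΦ hε L t ⟨N, Z⟩)).card : ℝ≥0∞) := by
  classical
  have H := lab_of_gas hΦ hε hz hZ
  have hinj := PW.injective (Cx_irrefl hε.le) (pw_Cx.2 hZ)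
  have hc : Function.Injective fun σ : Fin s ↪ Fin N => Z ∘ σ := fun σ σ' h =>
    Function.Embedding.ext fun k => hinj (congrFun h k)
  set B := tupBad s (pts ⟨N, Z⟩) (expo hΦ hε L t ⟨N, Z⟩)
  set A : (Fin s ↪ Fin N) → ℝ≥0∞ := fun σ => a fun k => (z N Z t (σ k), m ε (z N Z) t (σ k))
  refine (sum_trees_le' hΦ hε _ _ (fun y => Function.extend (fun σ : Fin s ↪ Fin N => Z ∘ σ) A 0 y +
    if y ∈ B then 1 else 0) fun τ y hy hr => ?_).trans ?_
  · split_ifs with hB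
    · exact (ha1 _).trans le_add_self
    · choose i hi using fun k => (mem_pts_mk Z _).1 ((mem_tup.1 hr).1 k)
      have hi' : (fun k => rpt (ftree τ y k)) = Z ∘ (⟨i, fun k l h => (mem_tup.1 hr).2
          ((hi k).symm.trans (h ▸ hi l))⟩ : Fin s ↪ Fin N) := funext fun k => (hi k).symm
      rw [add_zero, hi', hc.extend_apply]
      refine le_of_eq (congrArg a (funext fun k => ?_))
      have na : ¬(RB.Y Φ ε L hΦ hε).Exp (RB.fworld (pts ⟨N, Z⟩)) (src (Z (i k))) t := fun h =>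
        hB (mem_tupBad.2 ⟨hr, k, mem_expo.2 ⟨(mem_tup.1 hr).1 k, hi k ▸ h⟩⟩)
      have h1 : (ftree τ y k).root = src (Z (i k)) := by rw [hi k, src_rpt (hy k).1.sub]
      have h2 : lives Φ ε L (RB.fworld (pts ⟨N, Z⟩) : Set Src) (ftree τ y k) t := by
        rw [RB.coe_fworld]
        exact (hy k).1
      refine Prod.ext ?_ (hm H (τ k) _ na h1 h2 (hy k).2).symm
      change st Φ ε (ftree τ y k) t = z N Z t (i k)
      rw [H.path t ht, RB.Y_real hΦ hε (fun a ha => (H.birth a ha).ge) (H.mem' _) na le_rfl,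
        mpos_eq ((stat_eq_some_iff hΦ hε (Finset.finite_toSet _)).2 ⟨h1, h2⟩)]
  · rw [Finset.sum_add_distrib, sum_tup hinj, Finset.sum_ite_mem,
      Finset.inter_eq_right.2 fun y hy => (mem_tupBad.1 hy).1, Finset.cast_card]
    exact add_le_add (le_of_eq (Finset.sum_congr rfl fun σ _ => hc.extend_apply _ _ σ)) le_rfl

/-- The microscopic functional. -/
def LH (f₀ : Ph → ℝ) (z : H369.GasFlow E3) (m : {N : ℕ} → ℝ → (ℝ → Fin N → Ph) → ℝ → Fin N → ℕ)
    (ε t : ℝ) (a : (Fin s → Ph × ℕ) → ℝ≥0∞) : ℝ≥0∞ :=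
  ENNReal.ofReal ((ε ^ 2) ^ s) * H369.expectation f₀ ε fun N Z => ∑ σ : Fin s ↪ Fin N,
    a fun k => (z N Z t (σ k), m ε (z N Z) t (σ k))

/-- The kinetic functional. -/
def RH (g : ℕ → Dens) (t : ℝ) (a : (Fin s → Ph × ℕ) → ℝ≥0∞) : ℝ≥0∞ :=
  ∑' n : Fin s → ℕ, ∫⁻ ζ : Fin s → Ph, a (fun k => (ζ k, n k)) * ∏ k, g (n k) t (ζ k).1 (ζ k).2

theorem LH_add_le (h : GoodDatum f₀ κ) (hε : 0 < ε) (z : H369.GasFlow E3)
    {a : (Fin s → Ph × ℕ) → ℝ≥0∞} (ha1 : ∀ y, a y ≤ 1) :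
    LH f₀ z m ε t a + LH f₀ z m ε t (fun y => 1 - a y) ≤ 1 := by
  unfold LH
  rw [← mul_add, expectation_eq h hε, expectation_eq h hε, ofReal_sq_pow hε,
    ENNReal.ofReal_pow (mu_pos hε).le]
  refine (mul_le_mul_right ((le_lintegral_add _ _).trans
    (le_trans (le_of_eq (lintegral_congr fun c => ?_)) (lintegral_descFactorial_le h hε.le s)))
      _).trans (ENNReal.inv_mul_le_one _)
  rw [← Finset.sum_add_distrib]
  simp only [add_tsub_cancel_of_le (ha1 _)]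
  simp

variable {hΦ : IsPotential Φ} {hT : 0 < T} {h : RegSol Φ β f₀ T f}
  {m₀ : Measurable fun p : E3 × E3 => K1.f0hat f₀ p.1 p.2} (K : KinFamily hΦ f₀ m₀ T f)
  {g : ℕ → Dens}

include K in
theorem RH_add (hβ : 0 < β) (H : Split (K1.gainOf hΦ) (DF hΦ hT h) T (K1.fhat T f) mS g)
    (ht : t ∈ Icc 0 T) {a : (Fin s → Ph × ℕ) → ℝ≥0∞} (ha : Measurable a) (ha1 : ∀ y, a y ≤ 1) :
    RH g t a + RH g t (fun y => 1 - a y) = 1 := by
  have h1 := fun n => H.measurable_mark (s := s) (a := fun _ => 1) measurable_const t n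
  have m1 : Measurable fun z : Ph => K1.fhat T f t z.1 z.2 :=
    (K1.jm_fhat h).comp measurable_const measurable_fst measurable_snd
  unfold RH
  rw [← ENNReal.tsum_add]
  simp only [← lintegral_add_left (H.measurable_mark ha t _), ← add_mul,
    add_tsub_cancel_of_le (ha1 _)]
  have h2 := lintegral_prod_fin (n := s) m1
  rw [lintegral_fhat h ht, one_pow] at h2
  rw [← lintegral_tsum fun n => (h1 n).aemeasurable]
  refine Eq.trans (lintegral_congr fun ζ => ?_) h2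
  rw [ENNReal.tsum_mul_left, one_mul, tsum_pi_prod fun k j => g j t (ζ k).1 (ζ k).2]
  exact Finset.prod_congr rfl fun k _ => H.tsum_eq (isSol_DF hΦ hβ hT h) K.M0 K.b0 hT.le
    (fun t _ => K.f_le t) ht _ _

include K in
/-- **The lower bound.** -/
theorem lower (hm : Reads m mS) (hβ : 0 < β) (hst : IsStable Φ) (hg : GoodDatum f₀ κ)
    (hd : IsDatum β f₀) {z : ℝ → H369.GasFlow E3}
    (hz : ∀ ε, 0 < ε → H369.IsGasFlow (gradient Φ) ε (z ε))
    (H : Split (K1.gainOf hΦ) (DF hΦ hT h) T (K1.fhat T f) mS g) (s : ℕ) {δ : ℝ} (hδ : 0 < δ) :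
    ∀ᶠ ε in 𝓝[>] (0 : ℝ), ∀ t ∈ Icc 0 T, ∀ a : (Fin s → Ph × ℕ) → ℝ≥0∞, Measurable a →
      (∀ y, a y ≤ 1) → RH g t a ≤ LH f₀ (z ε) m ε t a + 3 * ENNReal.ofReal δ := by
  obtain ⟨L, h1, h2, h3⟩ := ((kin_le K hβ hg H s (ENNReal.ofReal_pos.2 hδ)).and
    ((core_all K hT hg hd s).and ((expoSmall K hst hT hg hd).tupBad hg s hδ))).exists
  set S := Fintype.piFinset (fun _ : Fin s => shapes L)
  have h4 := (Filter.eventually_all_finset S).2 fun τ hτ =>
    h2 τ hτ (δ / (S.card + 1)) (by positivity)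
  filter_upwards [h3, h4, self_mem_nhdsWithin] with ε h5 h6 hε t ht a ha ha1
  have hε : 0 < ε := hε
  have hgm := measurable_gE hg
  have hf : Measurable (KU.free t) := (KU.free_preserving t).measurable
  have h7 : ∀ τ ∈ S, ∫⁻ x, a (fun k => (KU.free t (x k).1, mS (τ k))) *
      ∏ k, kk K L (τ k) t (x k) ∂(mref τ) ≤
      ∫⁻ x, a (fun k => (KU.free t (x k).1, mS (τ k))) *
        ((∏ k, tw Φ ε (gE f₀) (τ k) (x k)) * Bx Φ ε L f₀ t τ x) ∂(mref τ) +
        ENNReal.ofReal (δ / (S.card + 1)) := fun τ hτ =>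
    (lintegral_mul_le_of_le_one (fun _ => ha1 _)
      (Finset.measurable_prod _ fun k _ =>
        (measurable_kk K hgm L (τ k) t).comp (measurable_pi_apply k))
      ((Finset.measurable_prod _ fun k _ => (measurable_tw hΦ ε hgm (τ k)).comp
        (measurable_pi_apply k)).mul (measurable_Bx hΦ hg hε τ))).trans
      (add_le_add le_rfl (h6 τ hτ t ht))
  have h8 : ∑ _τ ∈ S, ENNReal.ofReal (δ / (S.card + 1)) ≤ ENNReal.ofReal δ := by
    rw [Finset.sum_const, nsmul_eq_mul, ← ENNReal.ofReal_natCast,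
      ← ENNReal.ofReal_mul (by positivity)]
    apply ENNReal.ofReal_le_ofReal
    rw [mul_div_assoc', div_le_iff₀ (by positivity)]
    nlinarith
  have h9 : ∑ τ ∈ S, ∫⁻ x, a (fun k => (KU.free t (x k).1, mS (τ k))) *
        ((∏ k, tw Φ ε (gE f₀) (τ k) (x k)) * Bx Φ ε L f₀ t τ x) ∂(mref τ) ≤
      LH f₀ (z ε) m ε t a + ENNReal.ofReal δ := by
    refine le_trans ?_ (add_le_add le_rfl (h5 hε t ht))
    rw [LH, ofReal_sq_pow hε, ← mul_add, expectation_eq hg hε,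
      ← lintegral_add_right _ (measurable_tupBad hε s), ENNReal.ofReal_pow (mu_pos hε).le,
      ← ENNReal.mul_le_iff_le_inv (pow_ne_zero _ (ENNReal.ofReal_pos.2 (mu_pos hε)).ne')
        (ENNReal.pow_ne_top ENNReal.ofReal_ne_top), Finset.mul_sum]
    refine (Finset.sum_le_sum fun τ _ => tuple_ge hΦ hg hε (measurable_mark ha fun k => mS (τ k))
      (fun _ => ha1 _) τ).trans ((sum_lintegral_le _ _ _).trans (lintegral_mono_ae ?_))
    filter_upwards [ae_excl f₀ ε] with c hc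
    exact conf_le hm hΦ hε (hz ε hε) hc ht.1 ha1
  calc RH g t a ≤ _ := h1 t ht a ha ha1
    _ ≤ (LH f₀ (z ε) m ε t a + ENNReal.ofReal δ + ENNReal.ofReal δ) + ENNReal.ofReal δ := by
        refine add_le_add ((Finset.sum_le_sum h7).trans ?_) le_rfl
        rw [Finset.sum_add_distrib]
        exact add_le_add h9 h8
    _ = _ := by ring

theorem exists_ofReal_le {η : ℝ≥0∞} (hη : 0 < η) {n : ℝ≥0∞} (hn : n ≠ ∞) :
    ∃ δ : ℝ, 0 < δ ∧ n * ENNReal.ofReal δ ≤ η := by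
  have h1 : Tendsto (fun δ : ℝ => n * ENNReal.ofReal δ) (𝓝[>] 0) (𝓝 0) := by
    have := ENNReal.Tendsto.const_mul (a := n)
      (ENNReal.tendsto_ofReal (tendsto_id (x := 𝓝 (0 : ℝ)))) (Or.inr hn)
    rw [ENNReal.ofReal_zero, mul_zero] at this
    exact this.mono_left nhdsWithin_le_nhds
  exact ((eventually_mem_nhdsWithin).and (h1.eventually (ge_mem_nhds hη))).exists

include K in
/-- **Convergence of the marked marginals.** -/
theorem markedLimit (hm : Reads m mS) (hβ : 0 < β) (hst : IsStable Φ) (hg : GoodDatum f₀ κ)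
    (hd : IsDatum β f₀) {z : ℝ → H369.GasFlow E3}
    (hz : ∀ ε, 0 < ε → H369.IsGasFlow (gradient Φ) ε (z ε))
    (H : Split (K1.gainOf hΦ) (DF hΦ hT h) T (K1.fhat T f) mS g) :
    MarkedLimit f₀ z T f m fun n t ζ => g n t ζ.1 ζ.2 := by
  refine ⟨fun t ht ζ => (H.tsum_eq (isSol_DF hΦ hβ hT h) K.M0 K.b0 hT.le (fun t _ => K.f_le t)
    ht _ _).trans (K1.fhat_of_mem ht _ _), fun s => ENNReal.tendsto_nhds_zero.2 fun η hη => ?_⟩
  obtain ⟨δ, hδ, hδη⟩ := exists_ofReal_le hη (n := 3 + 3) (by simp)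
  filter_upwards [lower K hm hβ hst hg hd hz H s hδ, self_mem_nhdsWithin] with ε h1 hε
  refine iSup₂_le fun t ht => iSup_le fun a => iSup₂_le fun ha ha1 => le_trans ?_ hδη
  have h2 := RH_add K hβ H ht ha ha1
  have h3 := h1 t ht _ (measurable_const.sub ha) fun y => tsub_le_self (a := 1) (b := a y)
  have h4 : RH g t (fun y => 1 - a y) ≠ ∞ :=
    ne_top_of_le_ne_top ENNReal.one_ne_top (le_add_self.trans h2.le)
  rw [add_mul]
  refine add_le_add (tsub_le_iff_left.2 ?_) (tsub_le_iff_left.2 (h1 t ht a ha ha1))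
  refine (ENNReal.add_le_add_iff_right h4).1 ?_
  calc LH f₀ (z ε) m ε t a + RH g t (fun y => 1 - a y)
      ≤ LH f₀ (z ε) m ε t a + (LH f₀ (z ε) m ε t (fun y => 1 - a y) + 3 * ENNReal.ofReal δ) :=
        add_le_add le_rfl h3
    _ ≤ 1 + 3 * ENNReal.ofReal δ := by
        rw [← add_assoc]
        exact add_le_add (LH_add_le hg hε _ ha1) le_rfl
    _ = RH g t a + 3 * ENNReal.ofReal δ + RH g t (fun y => 1 - a y) := by
        rw [add_right_comm, h2]

theorem card_irregular_le (hε : 0 < ε) {z : H369.GasFlow E3}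
    (hz : H369.IsGasFlow (gradient Φ) ε z) {c : Conf Ph} (hc : c.2 ∈ excl ε c.1) :
    {i | Irregular ε (z c.1 c.2) T i}.ncard ≤ (expo hΦ hε L T c).card := by
  rw [← ncard_coe_finset]
  refine ncard_le_ncard_of_injOn c.2 (fun i hi => mem_expo.2 ⟨mem_pts.2 ⟨i, rfl⟩, ?_⟩)
    (PW.injective (Cx_irrefl hε.le) (pw_Cx.2 hc)).injOn
  by_contra na
  exact (lab_of_gas hΦ hε hz hc).not_irregular na hi

/-- **Triple encounters and recollisions are negligible.** -/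
theorem ExpoSmall.irregular (H : ExpoSmall hΦ f₀ T) (hT : 0 ≤ T) (hg : GoodDatum f₀ κ)
    {z : ℝ → H369.GasFlow E3} (hz : ∀ ε, 0 < ε → H369.IsGasFlow (gradient Φ) ε (z ε)) :
    Tendsto (fun ε => ENNReal.ofReal (ε ^ 2) * H369.expectation f₀ ε
      fun N Z => ({i | Irregular ε (z ε N Z) T i}.ncard : ℝ≥0∞)) (𝓝[>] 0) (𝓝 0) := by
  refine ENNReal.tendsto_nhds_zero.2 fun η hη => ?_
  obtain ⟨δ, hδ, hδη⟩ := exists_ofReal_le hη ENNReal.one_ne_top
  obtain ⟨L, hL⟩ := (H δ hδ).exists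
  filter_upwards [hL, self_mem_nhdsWithin] with ε h1 hε
  have hε : 0 < ε := hε
  have h2 := ofReal_sq_pow hε 1
  rw [pow_one, pow_one] at h2
  rw [one_mul] at hδη
  rw [h2, expectation_eq hg hε]
  refine le_trans (mul_le_mul_right (lintegral_mono_ae ?_) _)
    ((h1 hε T ⟨hT, le_rfl⟩).trans hδη)
  filter_upwards [ae_excl f₀ ε] with c hc
  exact Nat.cast_le.2 (card_irregular_le hε (hz ε hε) hc)

include K in
/-- **Almost all the particles are regular.** -/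
theorem regular (hT : 0 < T) (h : RegSol Φ β f₀ T f) (hβ : 0 < β) (hst : IsStable Φ)
    (hg : GoodDatum f₀ κ) (hd : IsDatum β f₀) {z : ℝ → H369.GasFlow E3}
    (hz : ∀ ε, 0 < ε → H369.IsGasFlow (gradient Φ) ε (z ε)) :
    Tendsto (fun ε => ENNReal.ofReal (ε ^ 2) * H369.expectation f₀ ε
      fun N Z => ({i | ¬Irregular ε (z ε N Z) T i}.ncard : ℝ≥0∞)) (𝓝[>] 0) (𝓝 1) := by
  have hTT : T ∈ Icc 0 T := ⟨hT.le, le_rfl⟩
  have H := split_jumps (isSol_DF hΦ hβ hT h)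
  have h0 : RH (s := 1) (gJ (K1.gainOf hΦ) (DF hΦ hT h) (K1.fhat T f)) T (fun _ => 1) = 1 := by
    have h1 := RH_add (s := 1) (a := fun _ => 1) K hβ H hTT measurable_const fun _ => le_rfl
    have h2 : RH (s := 1) (gJ (K1.gainOf hΦ) (DF hΦ hT h) (K1.fhat T f)) T (fun _ => 1 - 1) = 0 := by
      simp [RH]
    rwa [h2, add_zero] at h1
  refine (ENNReal.tendsto_nhds ENNReal.one_ne_top).2 fun η hη => ?_
  obtain ⟨δ, hδ, hδη⟩ := exists_ofReal_le hη (n := 1 + 3) (by simp)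
  obtain ⟨L, hL⟩ := (expoSmall K hst hT hg hd δ hδ).exists
  filter_upwards [hL, lower K reads_met hβ hst hg hd hz H 1 hδ, self_mem_nhdsWithin]
    with ε h1 h3 hε
  have hε : 0 < ε := hε
  have h2 := ofReal_sq_pow hε 1
  have h4 := h3 T hTT (fun _ => 1) measurable_const fun _ => le_rfl
  have h5 := lintegral_descFactorial_le hg hε.le 1
  rw [h0, LH, h2, expectation_eq hg hε, pow_one] at h4
  rw [pow_one, pow_one] at h2
  rw [h2, expectation_eq hg hε]
  refine ⟨tsub_le_iff_right.2 (h4.trans (le_trans ?_ (add_le_add le_rfl hδη))),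
    le_trans ?_ le_self_add⟩
  · rw [add_mul, one_mul, ← add_assoc]
    refine add_le_add (le_trans ?_ (add_le_add le_rfl (h1 hε T hTT))) le_rfl
    have hm : Measurable fun c : Conf Ph => ((expo hΦ hε L T c).card : ℝ≥0∞) :=
      (measurable_of_countable fun n : ℕ => (n : ℝ≥0∞)).comp (measurable_expo hε)
    rw [← mul_add, ← lintegral_add_right _ hm]
    refine mul_le_mul_right (lintegral_mono_ae ?_) _
    filter_upwards [ae_excl f₀ ε] with c hc
    have h6 := ncard_add_ncard_compl {i | Irregular ε (z ε c.1 c.2) T i}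
    have h7 := card_irregular_le (hΦ := hΦ) (L := L) (T := T) hε (hz ε hε) hc
    have h8 : c.1 ≤ {i | ¬Irregular ε (z ε c.1 c.2) T i}.ncard + (expo hΦ hε L T c).card := by
      rw [Nat.card_eq_fintype_card, Fintype.card_fin] at h6
      exact h6.ge.trans ((add_le_add h7 le_rfl).trans (add_comm _ _).le)
    simp only [Finset.sum_const, Finset.card_univ, Fintype.card_embedding_eq, Fintype.card_fin,
      Nat.descFactorial_one, nsmul_eq_mul, mul_one]
    exact_mod_cast h8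
  · rw [pow_one] at h5
    refine (mul_le_mul_right ((lintegral_mono fun c => ?_).trans h5) _).trans
      (ENNReal.inv_mul_le_one _)
    rw [Nat.descFactorial_one, Nat.cast_le]
    exact (ncard_le_card _).trans (by simp)

/-- The new statements, for the definitions of the problem. -/
theorem histories {Φ : E3 → ℝ} (hΦ : H369.IsPotential Φ) (hst : H369.IsStable Φ) (hβ : 0 < β)
    (hT : 0 < T) (hf₀ : H369.IsDatum Bridge.lat β f₀) (hf : H369.IsKinetic (gradient Φ) β f₀ T f)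
    {z : ℝ → H369.GasFlow E3} (hz : ∀ ε, 0 < ε → H369.IsGasFlow (gradient Φ) ε (z ε)) :
    (∃ g, IsJumpLaw (gradient Φ) f T g ∧ MarkedLimit f₀ z T f met g) ∧
    (∃ w, IsWildSum (gradient Φ) f T w ∧ MarkedLimit f₀ z T f cluster w) ∧
    Tendsto (fun ε => ENNReal.ofReal (ε ^ 2) * H369.expectation f₀ ε
      fun N Z => ({i | Irregular ε (z ε N Z) T i}.ncard : ℝ≥0∞)) (𝓝[>] 0) (𝓝 0) ∧
    Tendsto (fun ε => ENNReal.ofReal (ε ^ 2) * H369.expectation f₀ ε
      fun N Z => ({i | ¬Irregular ε (z ε N Z) T i}.ncard : ℝ≥0∞)) (𝓝[>] 0) (𝓝 1) := by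
  obtain ⟨Ψ, hΨS, hΨe, hgrad⟩ := hΦ.exists_rep
  have hΨ := Bridge.isPotential_of hΨS
  obtain ⟨κ, hg⟩ := H369.goodDatum_of hβ hf₀
  rw [hgrad] at hf hz ⊢
  have hβ' : 0 < 2 * β / 2 := by positivity
  have hd := Bridge.isDatum_of hf₀.stmt
  have h := regSol_of hf.stmt
  have hst' : IsStable Ψ := hst.congr hΨe
  obtain ⟨K⟩ := exists_family hΨ hβ' hT hd h
  have hsol := isSol_DF hΨ hβ' hT h
  exact ⟨⟨_, isJumpLaw_gJ hΨ hβ' hT h,
      markedLimit K reads_met hβ' hst' hg hd hz (split_jumps hsol)⟩,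
    ⟨_, isWildSum_gW hΨ hβ' hT h,
      markedLimit K reads_cluster hβ' hst' hg hd hz (split_wild hsol)⟩,
    (expoSmall K hst' hT hg hd).irregular hT.le hg hz, regular K hT h hβ' hst' hg hd hz⟩

end Vale.Agent.N119
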