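import Vale.Agent.N119.Limit

open Filter Topology
open scoped ENNReal

/-! Not a hand-in: withdrawn from `Results/P119` (departures/helper89.md). -/

namespace Vale.Agent.N119.OldHistories

open Vale.Agent.P119.H369 Vale.Agent.N119

/-- **The Boltzmann-Grad limit with the collision histories.** (1) is Q1. (2): the particles together
with the numbers of particles which they have met converge to independent copies of the Boltzmann
jump process. (3): the same for the sizes of the backward clusters and Wild's sum. (4): triple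
encounters and recollisions concern `o(μ)` particles. -/
theorem withHistories (Φ : EuclideanSpace ℝ (Fin 3) → ℝ) (β T : ℝ)
    (f₀ : EuclideanSpace ℝ (Fin 3) × EuclideanSpace ℝ (Fin 3) → ℝ)
    (f : ℝ → EuclideanSpace ℝ (Fin 3) × EuclideanSpace ℝ (Fin 3) → ℝ)
    (hΦ : IsPotential Φ) (hst : IsStable Φ) (hβ : 0 < β) (hT : 0 < T)
    (hf₀ : IsDatum (fun k => WithLp.toLp 2 (fun i => (k i : ℝ))) β f₀)
    (hf : IsKinetic (gradient Φ) β f₀ T f) :
    NewtonSolvable (gradient Φ) ∧
    ∀ z : ℝ → GasFlow (EuclideanSpace ℝ (Fin 3)),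
      (∀ ε : ℝ, 0 < ε → IsGasFlow (gradient Φ) ε (z ε)) →
      (HasMarginals f₀ z ∧ MarginalsConverge f₀ z T f) ∧
      (∃ g, IsJumpLaw (gradient Φ) f T g ∧ MarkedLimit f₀ z T f met g) ∧
      (∃ g, IsWildSum (gradient Φ) f T g ∧ MarkedLimit f₀ z T f cluster g) ∧
      Tendsto (fun ε => ENNReal.ofReal (ε ^ 2) * expectation f₀ ε
        fun N Z => ({i | Irregular ε (z ε N Z) T i}.ncard : ℝ≥0∞)) (𝓝[>] 0) (𝓝 0) ∧
      Tendsto (fun ε => ENNReal.ofReal (ε ^ 2) * expectation f₀ ε
        fun N Z => ({i | ¬Irregular ε (z ε N Z) T i}.ncard : ℝ≥0∞)) (𝓝[>] 0) (𝓝 1) :=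
  have H := main_of Vale.Agent.P119.AU.questionOne Φ β T f₀ hΦ hβ hT hf₀
  ⟨H.1, fun z hz => ⟨⟨(H.2 z hz).1, ((H.2 z hz).2 hst f hf).1⟩,
    histories hΦ hst hβ hT hf₀ hf hz⟩⟩

end Vale.Agent.N119.OldHistories
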