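import Vale.Agent.N119.Defs
import Vale.Agent.P119.END.Exposed

/-!
# The history of a particle which is not exposed is read off its tree
-/

open MeasureTheory Filter Topology Set

noncomputable section

namespace Vale.Agent.N119

open Vale.Agent.P119 Vale.Agent.P119.M Vale.Agent.P119.M.CTree Vale.Agent.P119.RB
  Vale.Agent.P119.KU

variable {Φ : E3 → ℝ} {ε : ℝ} {L : ℕ}

/-! ### Trees -/

/-- The number of collisions of the root particle. -/
def spT : CTree → ℕ
  | .leaf _ => 0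
  | .node a _ => spT a + 1

/-- The partners of the root particle. -/
def parts : CTree → Set Src
  | .leaf _ => ∅
  | .node a b => insert b.root (parts a)

theorem parts_subset : ∀ T : CTree, parts T ⊆ T.leaves
  | .leaf _ => empty_subset _
  | .node a b => by
    rintro c (rfl | hc)
    · exact Or.inr b.root_mem_leaves
    · exact Or.inl (parts_subset a hc)

theorem ncard_parts : ∀ {T : CTree}, ok Φ ε T → (parts T).ncard = spT T
  | .leaf _, _ => ncard_empty _
  | .node a b, h => by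
    have h1 : b.root ∉ parts a := fun hc =>
      Set.disjoint_left.1 h.2.2.1 (parts_subset a hc) b.root_mem_leaves
    change (insert b.root (parts a)).ncard = spT a + 1
    rw [ncard_insert_of_notMem h1 (a.leaves_finite.subset (parts_subset a)), ncard_parts h.1]

theorem ncard_leaves : ∀ {T : CTree}, ok Φ ε T → T.leaves.ncard = T.card
  | .leaf _, _ => ncard_singleton _
  | .node a b, h => by
    change (a.leaves ∪ b.leaves).ncard = a.card + b.card
    rw [ncard_union_eq h.2.2.1 a.leaves_finite b.leaves_finite, ncard_leaves h.1,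
      ncard_leaves h.2.1]

theorem mem_parts_of_spine {x y T : CTree} (h : Spine (node x y) T) : y.root ∈ parts T := by
  generalize hS : node x y = S at h
  induction h with
  | refl => subst hS; exact Or.inl rfl
  | left b _ ih => exact Or.inr ih

theorem spine_of_mem_parts : ∀ {T : CTree} {c : Src}, c ∈ parts T →
    ∃ x y, Spine (node x y) T ∧ y.root = c
  | .leaf _, _, h => absurd h (notMem_empty _)
  | .node a b, c, h => by
    rcases h with rfl | h
    · exact ⟨a, b, Spine.refl _, rfl⟩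
    · obtain ⟨x, y, h1, h2⟩ := spine_of_mem_parts h
      exact ⟨x, y, Spine.left b h1, h2⟩

theorem spine_ok {S T : CTree} (h : Spine S T) (hT : ok Φ ε T) : ok Φ ε S := by
  induction h with
  | refl => exact hT
  | left b _ ih => exact ih hT.1

theorem spine_ext (hΦ : IsPotential Φ) (hε : 0 < ε) {S T : CTree} (h : Spine S T)
    (hT : ok Φ ε T) : ext Φ ε S ≤ ext Φ ε T := by
  induction h with
  | refl => exact le_rfl
  | left b _ ih =>
    exact (ih hT.1).trans (hT.2.2.2.2.2.1.le.trans (sig_lt_ext hΦ hε hT).le)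

theorem cur_eq_of_spine (hΦ : IsPotential Φ) (hε : 0 < ε) {S T : CTree} (h : Spine S T)
    (hT : ok Φ ε T) {s : ℝ} (h1 : sig Φ ε S ≤ s) (h2 : s < ext Φ ε S) : cur Φ ε T s = S := by
  induction h with
  | refl => exact cur_of_sig_le h1
  | @left a b hS ih =>
    have h3 : s < sig Φ ε (node a b) :=
      (h2.trans_le (spine_ext hΦ hε hS hT.1)).trans hT.2.2.2.2.2.1
    rw [cur_of_lt_sig h3]
    exact ih hT.1

/-! ### Encounters of particles which are not exposed -/

section World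

variable {hΦ : IsPotential Φ} {hε : 0 < ε} {W : Finset Src}

/-- A particle met by a particle which is not exposed is its partner. -/
theorem node_of_near (hW : ∀ a ∈ W, a.1 = 0) {s : ℝ} (hs : 0 ≤ s) {a b : Src} (ha : a ∈ W)
    (hb : b ∈ W) (hab : a ≠ b) (na : ¬(Y Φ ε L hΦ hε).Exp W a s)
    (hd : ‖(XR Φ ε W s a).1 - (XR Φ ε W s b).1‖ < ε) :
    ¬(Y Φ ε L hΦ hε).Exp W b s ∧ ∃ x y, stat Φ ε L (W : Set Src) a s = some (node x y) ∧
      stat Φ ε L (W : Set Src) b s = some (node y x) ∧ sig Φ ε (node x y) < s ∧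
      s < ext Φ ε (node x y) := by
  have hWf := W.finite_toSet
  have hW0 : ∀ a ∈ W, 0 ≤ a.1 := fun a ha => (hW a ha).ge
  have hba : a.1 ≤ s := (hW a ha).le.trans hs
  have hbb : b.1 ≤ s := (hW b hb).le.trans hs
  have hcon : con Φ ε L (XR Φ ε) W s a b := Or.inr ⟨hab, ha, hb, hs, hba, hbb, ctc_of_lt hd⟩
  have nb : ¬(Y Φ ε L hΦ hε).Exp W b s := fun h => na (exp_of_con h hcon)
  refine ⟨nb, ?_⟩
  rw [Y_real hΦ hε hW0 ha na le_rfl, Y_real hΦ hε hW0 hb nb le_rfl] at hd
  have hm := (mcon_iff_mpos hΦ hε hWf (stat_of_not_exp na ha hs hba)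
    (stat_of_not_exp nb hb hs hbb)).2 ⟨hab, ctc_of_lt hd⟩
  obtain ⟨T, T', h1, h2, x, y, rfl, rfl, h3⟩ := part_of_not_exp na hm
  refine ⟨x, y, h1, h2, ?_, h3⟩
  have hok := ((stat_eq_some_iff hΦ hε hWf).1 h1).2.ok
  have h4 := part_mpos hΦ h1 h2
  have h5 : mpos Φ ε L (W : Set Src) a s = (pairLine Φ ε (ln Φ ε x, ln Φ ε y) s).1 := by
    rw [← h4]
  have h6 : mpos Φ ε L (W : Set Src) b s = (pairLine Φ ε (ln Φ ε x, ln Φ ε y) s).2 := by
    rw [← h4]
  rw [h5, h6] at hd
  exact ((dist_pairLine_lt_iff hΦ hε hok.2.2.2.2.1 hok.2.2.2.1.2 s).1 hd).1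

/-- During a collision of its tree a particle which is not exposed meets its partner. -/
theorem near_of_node (hW : ∀ a ∈ W, a.1 = 0) {s : ℝ} {x y : CTree}
    (na : ¬(Y Φ ε L hΦ hε).Exp W x.root s) (hl : lives Φ ε L (W : Set Src) (node x y) s)
    (h1 : sig Φ ε (node x y) < s) (h2 : s < ext Φ ε (node x y)) :
    ¬(Y Φ ε L hΦ hε).Exp W y.root s ∧ x.root ≠ y.root ∧
      ‖(XR Φ ε W s x.root).1 - (XR Φ ε W s y.root).1‖ < ε := by
  have hWf := W.finite_toSet
  have hW0 : ∀ a ∈ W, 0 ≤ a.1 := fun a ha => (hW a ha).ge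
  have ha : stat Φ ε L (W : Set Src) x.root s = some (node x y) :=
    (stat_eq_some_iff hΦ hε hWf).2 ⟨rfl, hl⟩
  have hb := stat_partner hΦ hε hWf ha h2
  have hp : part Φ ε L (W : Set Src) s x.root y.root := ⟨_, _, ha, hb, x, y, rfl, rfl, h2⟩
  have nb := not_exp_partner na hp
  have hx : x.root ∈ W := Finset.mem_coe.1 (hl.sub (Or.inl x.root_mem_leaves))
  have hy : y.root ∈ W := Finset.mem_coe.1 (hl.sub (Or.inr y.root_mem_leaves))
  refine ⟨nb, part_ne hΦ hε hWf hp, ?_⟩
  rw [Y_real hΦ hε hW0 hx na le_rfl, Y_real hΦ hε hW0 hy nb le_rfl]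
  have h4 := part_mpos hΦ ha hb
  have h5 : mpos Φ ε L (W : Set Src) x.root s = (pairLine Φ ε (ln Φ ε x, ln Φ ε y) s).1 := by
    rw [← h4]
  have h6 : mpos Φ ε L (W : Set Src) y.root s = (pairLine Φ ε (ln Φ ε x, ln Φ ε y) s).2 := by
    rw [← h4]
  rw [h5, h6]
  exact (dist_pairLine_lt_iff hΦ hε hl.ok.2.2.2.2.1 hl.ok.2.2.2.1.2 s).2 ⟨h1, h2⟩

end World

/-! ### Labelled worlds -/

/-- The paths `p` are the real paths of the world `W`, labelled by `e`. -/
structure Lab (Φ : E3 → ℝ) (ε : ℝ) (W : Finset Src) {N : ℕ} (e : Fin N → Src)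
    (p : ℝ → Fin N → Ph) : Prop where
  inj : Function.Injective e
  mem : ∀ a, a ∈ W ↔ ∃ i, e i = a
  birth : ∀ a ∈ W, a.1 = 0
  path : ∀ τ, 0 ≤ τ → ∀ i, p τ i = XR Φ ε W τ (e i)

theorem Back.mono {E : Type} [NormedAddCommGroup E] {N : ℕ} {ε : ℝ} {z : ℝ → Fin N → E × E}
    {t t' : ℝ} {i k : Fin N} (h : Back ε z t i k) (htt : t ≤ t') : Back ε z t' i k := by
  cases h with
  | refl => exact Back.refl _ _
  | step h1 h2 h3 => exact Back.step ⟨h1.1, h1.2.trans htt⟩ h2 h3

section Lab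

variable {hΦ : IsPotential Φ} {hε : 0 < ε} {W : Finset Src} {N : ℕ} {e : Fin N → Src}
  {p : ℝ → Fin N → Ph}

theorem Lab.mem' (H : Lab Φ ε W e p) (i : Fin N) : e i ∈ W := (H.mem _).2 ⟨i, rfl⟩

theorem Lab.node_of_meet (H : Lab Φ ε W e p) {s : ℝ} (hs : 0 ≤ s) {i j : Fin N}
    (na : ¬(Y Φ ε L hΦ hε).Exp W (e i) s) (h : Meet ε p s i j) :
    ¬(Y Φ ε L hΦ hε).Exp W (e j) s ∧ ∃ x y, x.root = e i ∧ y.root = e j ∧
      lives Φ ε L (W : Set Src) (node x y) s ∧ lives Φ ε L (W : Set Src) (node y x) s ∧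
      sig Φ ε (node x y) < s ∧ s < ext Φ ε (node x y) := by
  obtain ⟨h1, h2⟩ := h
  rw [H.path s hs, H.path s hs] at h2
  obtain ⟨h3, x, y, h4, h5, h6, h7⟩ :=
    node_of_near H.birth hs (H.mem' i) (H.mem' j) (H.inj.ne h1) na h2
  obtain ⟨k1, k2⟩ := (stat_eq_some_iff hΦ hε W.finite_toSet).1 h4
  obtain ⟨k3, k4⟩ := (stat_eq_some_iff hΦ hε W.finite_toSet).1 h5
  exact ⟨h3, x, y, k1, k3, k2, k4, h6, h7⟩

theorem Lab.meet_of_node (H : Lab Φ ε W e p) {s : ℝ} {i j : Fin N} {x y : CTree}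
    (hx : x.root = e i) (hy : y.root = e j) (na : ¬(Y Φ ε L hΦ hε).Exp W (e i) s)
    (hl : lives Φ ε L (W : Set Src) (node x y) s)
    (h1 : sig Φ ε (node x y) < s) (h2 : s < ext Φ ε (node x y)) :
    ¬(Y Φ ε L hΦ hε).Exp W (e j) s ∧ Meet ε p s i j := by
  have hs : 0 ≤ s := (sig_nonneg hΦ hε hl.ok).trans h1.le
  obtain ⟨h3, h4, h5⟩ := near_of_node (hΦ := hΦ) (hε := hε) H.birth (by rw [hx]; exact na) hl h1 h2
  rw [hx, hy] at h4 h5
  rw [hy] at h3
  refine ⟨h3, fun h => h4 (by rw [h]), ?_⟩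
  rw [H.path s hs, H.path s hs]
  exact h5

/-- **The number of particles met** is the number of collisions of the root of the tree. -/
theorem Lab.met_eq (H : Lab Φ ε W e p) {t : ℝ} {i : Fin N} {T : CTree}
    (na : ¬(Y Φ ε L hΦ hε).Exp W (e i) t) (hr : T.root = e i)
    (hl : lives Φ ε L (W : Set Src) T t) (hT : ext Φ ε T ≤ t) : met ε p t i = spT T := by
  have hWf := W.finite_toSet
  have hb : T.root.1 = 0 := by rw [hr]; exact H.birth _ (H.mem' i)
  rw [← ncard_parts hl.ok, met, ← ncard_image_of_injective _ H.inj]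
  congr 1
  ext c
  constructor
  · rintro ⟨j, ⟨τ, hτ, hm⟩, rfl⟩
    obtain ⟨-, x, y, h1, h2, h3, -, -, -⟩ :=
      H.node_of_meet hτ.1 (fun h => na (h.mono hτ.2)) hm
    have h4 := lives_cur hΦ hε hWf hl hτ.2 (by rw [hb]; exact hτ.1)
    have h5 : cur Φ ε T τ = node x y :=
      lives_unique hΦ hε hWf h4 h3 (by rw [cur_root, hr]; exact h1.symm)
    rw [← h2]
    exact mem_parts_of_spine (h5 ▸ cur_spine T τ)
  · intro hc
    obtain ⟨x, y, h1, rfl⟩ := spine_of_mem_parts hc
    have hok := spine_ok h1 hl.ok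
    have h2 := sig_lt_ext hΦ hε hok
    have h3 := sig_nonneg hΦ hε hok
    have h4 := spine_ext hΦ hε h1 hl.ok
    set s := (sig Φ ε (node x y) + ext Φ ε (node x y)) / 2 with hs
    have h5 : sig Φ ε (node x y) < s := by rw [hs]; linarith
    have h6 : s < ext Φ ε (node x y) := by rw [hs]; linarith
    have h7 : s ≤ t := by linarith
    have h8 := lives_cur hΦ hε hWf hl h7 (by rw [hb]; linarith)
    rw [cur_eq_of_spine hΦ hε h1 hl.ok h5.le h6] at h8
    obtain ⟨j, hj⟩ := (H.mem y.root).1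
      (Finset.mem_coe.1 (h8.sub (Or.inr y.root_mem_leaves)))
    have hx : x.root = e i := (h1.root_eq).trans hr
    obtain ⟨-, h9⟩ := H.meet_of_node hx hj.symm (fun h => na (h.mono h7)) h8 h5 h6
    exact ⟨j, ⟨s, ⟨by linarith, h7⟩, h9⟩, hj⟩

/-- The backward cluster is contained in the tree. -/
theorem Lab.back_subset (H : Lab Φ ε W e p) {t : ℝ} {i k : Fin N} (h : Back ε p t i k) :
    ¬(Y Φ ε L hΦ hε).Exp W (e i) t → ∀ (S : CTree) (t' : ℝ), S.root = e i →
      live Φ ε L (W : Set Src) S t' → t ≤ t' → (sig Φ ε S < t' ∨ sig Φ ε S ≤ 0) →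
      e k ∈ S.leaves := by
  have hWf := W.finite_toSet
  induction h with
  | refl t i =>
    intro _ S _ hr _ _ _
    rw [← hr]
    exact S.root_mem_leaves
  | @step t τ i j k hτ hm _ ih =>
    intro na S t' hr hl htt hs
    obtain ⟨nb, x, y, h1, h2, h3, h4, h5, h6⟩ :=
      H.node_of_meet hτ.1 (fun h => na (h.mono hτ.2)) hm
    have h7 : e k ∈ (node y x).leaves :=
      ih nb (node y x) τ h2 h4.live le_rfl (Or.inl (by rw [sig_swap x y]; exact h5))
    have h8 : e k ∈ (node x y).leaves := h7.symm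
    have hb : S.root.1 = 0 := by rw [hr]; exact H.birth _ (H.mem' i)
    have h9 : Spine (node x y) S := by
      rcases (hτ.2.trans htt).lt_or_eq with h10 | h10
      · have h11 := live_cur hΦ hε hWf hl h10 (by rw [hb]; exact hτ.1)
        have h12 : cur Φ ε S τ = node x y :=
          lives_unique hΦ hε hWf h11 h3 (by rw [cur_root, hr]; exact h1.symm)
        exact h12 ▸ cur_spine S τ
      · subst h10
        have h11 : sig Φ ε S < τ := by
          rcases hs with hs | hs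
          · exact hs
          · exact (hs.trans (sig_nonneg hΦ hε h3.ok)).trans_lt h5
        have h12 : S = node x y :=
          live_unique hΦ hε hWf hl h3.live (hr.trans h1.symm) h11 h5
        rw [h12]
        exact Spine.refl _
    exact h9.leaves_subset h8

/-- The tree is contained in the backward cluster. -/
theorem Lab.back_of_leaf (H : Lab Φ ε W e p) {k : Fin N} : ∀ (T : CTree) (i : Fin N) (t : ℝ),
    ¬(Y Φ ε L hΦ hε).Exp W (e i) t → T.root = e i → live Φ ε L (W : Set Src) T t →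
      ext Φ ε T ≤ t → e k ∈ T.leaves → Back ε p t i k
  | .leaf σ, i, t, _, hr, _, _, hk => by
    have h1 : e k = e i := (mem_singleton_iff.1 hk).trans hr
    rw [H.inj h1]
    exact Back.refl _ _
  | .node x y, i, t, na, hr, hl, hT, hk => by
    have hWf := W.finite_toSet
    have h2 := sig_lt_ext hΦ hε hl.ok
    have h3 := sig_nonneg hΦ hε hl.ok
    set s := (sig Φ ε (node x y) + ext Φ ε (node x y)) / 2 with hs
    have h5 : sig Φ ε (node x y) < s := by rw [hs]; linarith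
    have h6 : s < ext Φ ε (node x y) := by rw [hs]; linarith
    have h7 : s < t := by linarith
    have h8 := hl.lives_of_lt h7 h5.le
    rcases hk with hk | hk
    · obtain ⟨k1, k2⟩ := (alive_iff_live hΦ hε hWf).1 (live_left hΦ hε hWf hl)
      exact (H.back_of_leaf x i _ (fun h => na (h.mono hl.sig_le)) hr k1 k2 hk).mono hl.sig_le
    · obtain ⟨k1, k2⟩ := (alive_iff_live hΦ hε hWf).1 (live_right hΦ hε hWf hl)
      obtain ⟨j, hj⟩ := (H.mem y.root).1
        (Finset.mem_coe.1 (hl.sub (Or.inr y.root_mem_leaves)))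
      obtain ⟨nb, h9⟩ := H.meet_of_node (x := x) hr hj.symm (fun h => na (h.mono h7.le)) h8 h5 h6
      have h10 := H.back_of_leaf y j _ (fun h => nb (h.mono h5.le)) hj.symm k1 k2 hk
      exact Back.step ⟨by linarith, h7.le⟩ h9 (h10.mono h5.le)

/-- **The backward cluster** is the set of leaves of the tree. -/
theorem Lab.cluster_eq (H : Lab Φ ε W e p) {t : ℝ} {i : Fin N} {T : CTree}
    (na : ¬(Y Φ ε L hΦ hε).Exp W (e i) t) (hr : T.root = e i)
    (hl : lives Φ ε L (W : Set Src) T t) (hT : ext Φ ε T ≤ t) :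
    cluster ε p t i = T.card - 1 := by
  have hb : T.root.1 = 0 := by rw [hr]; exact H.birth _ (H.mem' i)
  have hs : sig Φ ε T < t ∨ sig Φ ε T ≤ 0 := by
    cases T with
    | leaf σ => exact Or.inr hb.le
    | node x y => exact Or.inl ((sig_lt_ext hΦ hε hl.ok).trans_le hT)
  rw [← ncard_leaves hl.ok, ← ncard_sdiff_singleton_of_mem T.root_mem_leaves, cluster,
    ← ncard_image_of_injective _ H.inj]
  congr 1
  ext c
  constructor
  · rintro ⟨k, ⟨h1, h2⟩, rfl⟩
    refine ⟨H.back_subset h2 na T t hr hl.live le_rfl hs, fun h => h1 (H.inj ?_)⟩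
    rw [← hr]
    exact h
  · rintro ⟨h1, h2⟩
    obtain ⟨k, rfl⟩ := (H.mem c).1 (Finset.mem_coe.1 (hl.sub h1))
    refine ⟨k, ⟨fun h => h2 ?_, H.back_of_leaf T i t na hr hl.live hT h1⟩, rfl⟩
    rw [h, hr]
    rfl

/-- **No triple encounter and no recollision** for a particle which is not exposed. -/
theorem Lab.not_irregular (H : Lab Φ ε W e p) {T : ℝ} {i : Fin N}
    (na : ¬(Y Φ ε L hΦ hε).Exp W (e i) T) : ¬Irregular ε p T i := by
  have hWf := W.finite_toSet
  rintro ⟨τ, hτ, j, hm, h⟩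
  have na' : ¬(Y Φ ε L hΦ hε).Exp W (e i) τ := fun h => na (h.mono hτ.2)
  obtain ⟨nb, x, y, h1, h2, h3, h4, h5, h6⟩ := H.node_of_meet hτ.1 na' hm
  rcases h with ⟨k, hki, hkj, h | h⟩ | ⟨r, hr, hn, k, hi, hj⟩
  · obtain ⟨-, x', y', k1, k2, k3, -⟩ := H.node_of_meet hτ.1 na' h
    have h7 := lives_unique hΦ hε hWf h3 k3 (h1.trans k1.symm)
    cases h7
    exact hkj (H.inj (k2.symm.trans h2))
  · obtain ⟨-, x', y', k1, k2, k3, -⟩ := H.node_of_meet hτ.1 nb h
    have h7 := lives_unique hΦ hε hWf h4 k3 (h2.trans k1.symm)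
    cases h7
    exact hki (H.inj (k2.symm.trans h1))
  · have h7 : r ≤ sig Φ ε (node x y) := by
      by_contra hcon
      have h8 : sig Φ ε (node x y) < r := not_le.1 hcon
      exact hn (H.meet_of_node h1 h2 (fun h => na' (h.mono hr.2)) (h3.anti hr.2 h8.le) h8
        (hr.2.trans_lt h6)).2
    obtain ⟨k1, -⟩ := (alive_iff_live hΦ hε hWf).1 (live_left hΦ hε hWf h3.live)
    obtain ⟨k2, -⟩ := (alive_iff_live hΦ hε hWf).1 (live_right hΦ hε hWf h3.live)
    have hok := h3.ok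
    have k3 := H.back_subset hi (fun h => na' (h.mono hr.2)) x _ h1 k1 h7
      (Or.inl ((sig_le_ext hΦ hε hok.1).trans_lt hok.2.2.2.2.2.1))
    have k4 := H.back_subset hj (fun h => nb (h.mono hr.2)) y _ h2 k2 h7
      (Or.inl ((sig_le_ext hΦ hε hok.2.1).trans_lt hok.2.2.2.2.2.2))
    exact Set.disjoint_left.1 hok.2.2.1 k3 k4

end Lab

end Vale.Agent.N119
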